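import Vale.Agent.P057T1.Lab
import Vale.Agent.P057MA.Uq

/-!
Restriction of a system, short integer forms on frozen systems, blockwise narrowing, Markov.
-/

set_option linter.unusedSectionVars false

open Matrix Finset
open scoped Real
open Vale.Agent.P267.H775 Vale.Agent.P057G Vale.Agent.P057MA Vale.Agent.P057HU

namespace Vale.Agent.P057T1

noncomputable section

variable {V ι : Type*} [DecidableEq ι] [Fintype ι] [DecidableEq V] {S : MS V ι}

/-- the restriction to `r`, which becomes closed -/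
def rst (S : MS V ι) (r : Finset ι) : MS V ι where
  fc := S.fc
  lv i := if i ∈ r then S.lv i else univ.sup S.lv + 1
  G := S.G
  p z i := if i ∈ r then S.p (msk r z) i else 0

theorem msk_mix (r s : Finset ι) (x y : ι → ℝ) : msk r (mix s x y) = mix s (msk r x) (msk r y) := by
  funext j; simp only [msk, mix]; split_ifs <;> rfl

theorem ok_rst (h : S.Ok) {r : Finset ι} (hr : Sat S.G r) : (rst S r).Ok := by
  refine ⟨h.pd, fun i j hij => ⟨(h.orth i j hij).1, ?_⟩, fun i z z' e => ?_, fun v i hv y => ?_⟩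
  · have : i ∈ r ↔ j ∈ r := ⟨fun a => by_contra fun b => hij (hr i j a b),
      fun a => by_contra fun b => hij (hr.symm h.pd.1 b a)⟩
    simp only [rst, this, (h.orth i j hij).2]
  · by_cases hi : i ∈ r
    · simp only [rst, if_pos hi]
      refine h.loc i _ _ fun j hj => ?_
      by_cases hr' : j ∈ r
      · rw [msk_pos _ hr', msk_pos _ hr']
        exact e j ⟨hj.1, by simp only [rst, if_pos hi, if_pos hr']; exact hj.2⟩
      · rw [msk_neg _ hr', msk_neg _ hr']
    · simp only [rst, if_neg hi]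
  · by_cases hi : i ∈ r
    · have h1 := h.aff v i hv (msk r y)
      have e0 : msk r (0 : ι → ℝ) = 0 := by funext j; simp [msk]
      change IsLinearMap ℝ fun x => (if i ∈ r then S.p (msk r (mix (S.st v) x y)) i else 0) -
        (if i ∈ r then S.p (msk r (mix (S.st v) 0 y)) i else 0)
      simp only [if_pos hi, msk_mix, e0]
      constructor
      · intro a b
        rw [← h1.map_add]; congr 3; funext j; simp only [msk, Pi.add_apply]; split_ifs <;> simp
      · intro c a
        rw [← h1.map_smul]; congr 3; funext j; simp only [msk, Pi.smul_apply]; split_ifs <;> simp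
    · simp only [rst, if_neg hi]
      exact ⟨fun _ _ => by simp, fun _ _ => by simp⟩

theorem cen_rst (hc : S.Cen) (r : Finset ι) : (rst S r).Cen := by
  refine ⟨hc.ne, fun v i hv y => ?_⟩
  have e0 : msk r (0 : ι → ℝ) = 0 := by funext j; simp [msk]
  change (if i ∈ r then S.p (msk r (mix (S.st v) 0 y)) i else 0) = 0
  rw [msk_mix, e0, hc.zero v i hv, ite_self]

theorem cls_rst (S : MS V ι) (r : Finset ι) : Cls (rst S r) r := by
  have : ∀ i, S.lv i ≤ univ.sup S.lv := fun i => le_sup (mem_univ i)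
  constructor
  · intro i j _ e hi
    by_contra hj
    simp only [rst, if_pos hi, if_neg hj] at e
    have := this i; omega
  · intro i hi j e
    by_contra hj
    have e2 := e.2
    simp only [rst, if_pos hi, if_neg hj] at e2
    have := this i; omega

theorem mass_rst (S : MS V ι) (r : Finset ι) : (rst S r).mass r = S.mass r := by
  unfold MS.mass
  congr 2; funext z
  unfold MS.wt
  split_ifs with hz
  · congr 1
    refine msk_congr fun i hi => ?_
    have : msk r (toR z) = toR z := funext fun j => by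
      by_cases hj : j ∈ r
      · exact msk_pos _ hj
      · rw [msk_neg _ hj, toR_apply, hz j hj, Int.cast_zero]
    simp only [MS.ps, rst, Pi.sub_apply, if_pos hi, this]
  · rfl

/-- short integer forms vanish on a frozen system of small mass -/
theorem uf_of_mass (h : S.Ok) (hc : S.Cen) {q : Finset ι} (hq : Cls S q) {A : Finset V}
    (hA : A.Nonempty) (y : ι → ℝ) {K W η : ℝ} (hW : (K + 1) * (q.card + 2 * A.card + 2) ≤ W)
    (hK : 0 ≤ K) (hm : ((nar S W).frz A y).mass (q ∩ S.sts A) ≤ 1 + η)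
    (hη : 500 * η ≤ (1 / 7) ^ A.card) : UF S q A K y := by
  intro f hf hi hb
  have hs : Sat S.G (q ∩ S.sts A) := (hq.sat h).inter (h.sat_sts A)
  obtain ⟨v, hv⟩ := hA
  have e : ∀ u ∈ A, (rst (S.frz A y) (q ∩ S.sts A)).st u = S.st u := fun u hu => MS.frz_st y hu
  refine uq (S := rst (S.frz A y) (q ∩ S.sts A)) (ok_rst (h.frz A y) hs)
    (cen_rst (hc.frz A y) _) (cls_rst _ _) (L := A) (fun i hi => ?_)
    ⟨hf.on, fun u hu => by rw [e u hu]; exact (hf.lin u hu).aff⟩ (v := v)
    (by rw [e v hv]; exact hf.lin v hv) hi (K := K) (W := W) (η := η) (fun z hz => ?_)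
    (le_trans ?_ hW) ?_ hη
  · change (S.frz A y).fc i ⊆ A
    rw [MS.frz_fc_pos y (mem_inter.1 hi).2]; exact inter_subset_right
  · have e1 : ∀ j ∈ q ∩ S.sts A, z j = mix (S.sts A) (msk (q ∩ S.sts A) z) y j := fun j hj => by
      rw [mix_pos _ _ (mem_inter.1 hj).2, msk_pos _ hj]
    rw [hf.on z _ e1]
    refine hb _ ⟨fun j hj => mix_neg _ _ fun a =>
      (mem_sdiff.1 hj).2 (mem_inter.2 ⟨(mem_sdiff.1 hj).1, a⟩), le_of_eq_of_le ?_ hz⟩
    unfold ln2
    congr 1
    refine msk_congr fun j hj => ?_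
    simp only [rst, Pi.sub_apply, if_pos hj, MS.frz_p_pos _ _ (mem_inter.1 hj).2, ← e1 j hj]
  · have : ((q ∩ S.sts A).card : ℝ) ≤ q.card := by exact_mod_cast card_le_card inter_subset_left
    gcongr
  · exact (mass_rst ((nar S W).frz A y) _).trans_le hm

/-- blockwise scaling of a Gram matrix -/
def gsc (G : Matrix ι ι ℝ) (s : ι → ℝ) : Matrix ι ι ℝ := of fun i j => s i * G i j * s j

theorem qq_gsc (G : Matrix ι ι ℝ) (s u : ι → ℝ) : qq (gsc G s) u = qq G (s * u) := by
  simp only [qq, gsc, dotProduct, mulVec, of_apply, Pi.mul_apply, mul_sum]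
  exact sum_congr rfl fun i _ => sum_congr rfl fun j _ => by ring

theorem ok_gsc (h : S.Ok) {s : ι → ℝ} (hs : ∀ i j, S.fc i = S.fc j → s i = s j)
    (h1 : ∀ i, 1 ≤ s i) : (S.gram (gsc S.G s)).Ok := by
  refine h.gram (posDef_of_le h.pd ?_ fun x => ?_) fun i j hij => h.orth i j fun e => hij ?_
  · ext i j
    have := h.pd.1.apply i j
    simp only [star_trivial] at this
    simp only [gsc, conjTranspose_apply, of_apply, star_trivial, this]; ring
  · rw [qq_gsc]
    have := qq_scale_le h.pd.posSemidef (a := 1) (b := s) (fun _ _ _ => rfl)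
      (fun i j e => hs i j (h.orth i j e).1) (fun i => by simpa using (h1 i).trans (le_abs_self _)) x
    rwa [one_mul] at this
  · simp [gsc, e]

theorem mass_gsc (h : S.Ok) (hc : S.Cen) {s : ι → ℝ} (hs : ∀ i j, S.fc i = S.fc j → s i = s j)
    (h1 : ∀ i, 1 ≤ s i) {W : ℝ} (hW : 0 < W) (h2 : ∀ i, s i ≤ W) (q : Finset ι) :
    (S.gram (gsc S.G s)).mass q ≤ (nar S W).mass q :=
  (ok_gsc h hs h1).mass_narrow (hc.gram _) (H := W ^ 2 • S.G) (ok_nar h hW.ne') (fun x => by
    change qq (gsc S.G s) x ≤ _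
    have := qq_scale_le h.pd.posSemidef (a := s) (b := fun _ => W)
      (fun i j e => hs i j (h.orth i j e).1) (fun _ _ _ => rfl)
      (fun i => pow_le_pow_left₀ (by linarith [h1 i]) (h2 i) 2) x
    rw [qq_gsc, qq_smul_mat, ← qq_smul]
    exact this) q

theorem blk_gsc (G : Matrix ι ι ℝ) {s : ι → ℝ} {r : Finset ι} {c : ℝ} (h : ∀ i ∈ r, s i = c) :
    blk (gsc G s) r = blk (c ^ 2 • G) r := by
  ext i j
  simp only [blk, gsc, submatrix_apply, of_apply, h _ i.2, h _ j.2, Matrix.smul_apply,
    smul_eq_mul]; ring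

theorem mass_gram {G H : Matrix ι ι ℝ} {r : Finset ι} (e : blk G r = blk H r) :
    (S.gram G).mass r = (S.gram H).mass r := by
  have := MS.wt_gram (S := S.gram H) (G := G) (q := r) e
  unfold MS.mass
  rw [show (S.gram G).wt r = (S.gram H).wt r from funext this]
  change _ / vol (blk G r) = _ / vol (blk H r)
  rw [e]

/-- indicator of a statement -/
def ind (p : Prop) : ℝ := by classical exact if p then 1 else 0

theorem ind_pos {p : Prop} (h : p) : ind p = 1 := if_pos h
theorem ind_neg {p : Prop} (h : ¬ p) : ind p = 0 := if_neg h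
theorem ind_nonneg (p : Prop) : 0 ≤ ind p := by unfold ind; split_ifs <;> simp
theorem ind_le (p : Prop) : ind p ≤ 1 := by unfold ind; split_ifs <;> simp
theorem abs_ind (p : Prop) : |ind p| ≤ 1 := by rw [abs_of_nonneg (ind_nonneg p)]; exact ind_le p
theorem ind_mono {p r : Prop} (h : p → r) : ind p ≤ ind r := by
  by_cases hp : p
  · rw [ind_pos hp, ind_pos (h hp)]
  · rw [ind_neg hp]; exact ind_nonneg r

/-- the defects of the frozen masses -/
theorem hasSum_frz_defect (h : S.Ok) (q : Finset ι) (L : Finset V) :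
    HasSum (fun y => S.wt (q \ S.sts L) y * ((S.frz L (toR y)).mass (q ∩ S.sts L) - 1))
      ((S.mass q - S.mass (q \ S.sts L)) * vl S.G (q \ S.sts L)) := by
  have := (h.hasSum_mass_frz q L).sub (h.hasSum_wt (q \ S.sts L))
  simpa only [mul_sub, sub_mul, mul_one] using this

theorem frz_defect (h : S.Ok) (hc : S.Cen) {q : Finset ι} (hq : Sat S.G q) (L : Finset V)
    {η : ℝ} (hm : S.mass q ≤ 1 + η) : ∃ b ≤ η * vl S.G (q \ S.sts L),
    HasSum (fun y => S.wt (q \ S.sts L) y * ((S.frz L (toR y)).mass (q ∩ S.sts L) - 1)) b :=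
  ⟨_, mul_le_mul_of_nonneg_right (by
    linarith [h.one_le_mass hc (hq.sdiff h.pd.1 (h.sat_sts L))]) (vl_pos h.pd _).le,
    hasSum_frz_defect h q L⟩

/-- Markov for short integer forms: live part narrowed, frozen part as given -/
theorem uf_markov (h : S.Ok) (hc : S.Cen) {q : Finset ι} (hq : Cls S q) {A : Finset V}
    (hA : A.Nonempty) {s : ι → ℝ} (hs : ∀ i j, S.fc i = S.fc j → s i = s j) (h1 : ∀ i, 1 ≤ s i)
    {c K W W' η : ℝ} (hc0 : c ≠ 0) (hW' : 0 < W') (h2 : ∀ i, s i ≤ W')
    (h3 : ∀ i ∈ S.sts A, s i = c * W)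
    (hW : (K + 1) * (q.card + 2 * A.card + 2) ≤ W) (hK : 0 ≤ K)
    (hm : (nar S W').mass q ≤ 1 + η) :
    ∑' y, (S.gram (gsc S.G s)).wt (q \ S.sts A) y * ind (¬ UF (nar S c) q A K (toR y)) ≤
      500 * 7 ^ A.card * η * vl (gsc S.G s) (q \ S.sts A) := by
  have h' := ok_gsc h hs h1
  have hq' : Cls (S.gram (gsc S.G s)) q := ⟨hq.blk, hq.dep⟩
  obtain ⟨b, hb, hsum⟩ := frz_defect h' (hc.gram _) (hq'.sat h') A
    ((mass_gsc h hc hs h1 hW' h2 q).trans hm)
  have p7 : (0 : ℝ) < 7 ^ A.card := by positivity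
  refine le_trans (hasSum_le (fun y => ?_)
    (h'.summable_re _ fun y => abs_ind _).hasSum (hsum.mul_left (500 * 7 ^ A.card))) ?_
  · rw [mul_left_comm]
    refine mul_le_mul_of_nonneg_left ?_ (MS.wt_nonneg _ _)
    have h4 := (h'.frz A (toR y)).one_le_mass ((hc.gram _).frz A (toR y))
      ((hq'.sat h').inter (h'.sat_sts A))
    by_cases hu : UF (nar S c) q A K (toR y)
    · rw [ind_neg (not_not.2 hu)]; exact mul_nonneg (by positivity) (by linarith)
    rw [ind_pos hu]
    by_contra h5
    refine hu (uf_of_mass (ok_nar h hc0) (cen_nar hc c) (hq.nar c) hA _ hW hK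
      (η := 1 / (500 * 7 ^ A.card)) ?_ (le_of_eq ?_))
    · have e : ((nar (nar S c) W).frz A (toR y)).mass (q ∩ S.sts A) =
          ((S.gram (gsc S.G s)).frz A (toR y)).mass (q ∩ S.sts A) := by
        rw [nar_nar]
        exact (mass_gram (S := S.frz A (toR y))
          (blk_gsc S.G fun i hi => h3 i (mem_inter.1 hi).2)).symm
      refine e.trans_le ?_
      rw [not_le, ← lt_div_iff₀' (by positivity)] at h5
      exact (sub_lt_iff_lt_add'.1 h5).le
    · rw [one_div (7 : ℝ), inv_pow]; field_simp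
  · rw [mul_assoc _ η]
    exact mul_le_mul_of_nonneg_left hb (by positivity)

end

end Vale.Agent.P057T1
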