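import Vale.Agent.P057T1.Dv2

/-!
Dense vanishing at the level of one fibre: generic fibres, dense fibres, affine forms.
-/

set_option linter.unusedSectionVars false

open Matrix Finset
open scoped Real
open Vale.Agent.P267.H775 Vale.Agent.P057G Vale.Agent.P057MA Vale.Agent.P057HU

namespace Vale.Agent.P057T1

noncomputable section

variable {V ι : Type*} [DecidableEq ι] [Fintype ι] [DecidableEq V] {S : MS V ι}

/-- the event `E` is dense in the fibre over `w` at the frozen point `y` -/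
def Fib (S : MS V ι) (r : Finset ι) (w : V) (E : (ι → ℤ) → Prop) (β : ℝ) (y : ι → ℤ) : Prop :=
  β * vol (S.fg r w (toR y)) ≤
    ∑' x, gs (S.fg r w (toR y)) (toR x - 0) * ind (E (put (r ∩ S.st w) x y))

theorem uf_empty (q : Finset ι) {K : ℝ} (hK : K < 1) (y : ι → ℝ) : UF S q ∅ K y := by
  intro η h1 h2 h3 z
  obtain ⟨n, hn⟩ := h2 0
  have e : ∀ u, η u = n := fun u => (h1.on _ _ fun i hi => by simp [MS.sts_empty] at hi).trans hn
  have h4 := h3 y ⟨fun _ _ => rfl, by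
    rw [MS.sts_empty, inter_empty, ln2, show msk ∅ (y - S.p y) = 0 from funext fun j => by
      simp [msk], qq_zero]; norm_num⟩
  rw [e] at h4 ⊢
  have : |n| < 1 := by exact_mod_cast h4.trans_lt hK
  exact_mod_cast Int.abs_lt_one_iff.1 this

/-- a dense event is dense in many fibres -/
theorem dense_fib (h : S.Ok) (hc : S.Cen) {r : Finset ι} (hr : Cls S r) (w : V) {β η : ℝ}
    (hβ : 0 ≤ β) (hβ1 : β ≤ 1) (hm : S.mass r ≤ 1 + η) {E : (ι → ℤ) → Prop}
    (hE : β * vl S.G r ≤ ∑' y, S.wt r y * ind (E y)) :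
    (β / 2 - 2 * η) * vl S.G (r \ S.st w) ≤
      ∑' y, S.wt (r \ S.st w) y * ind (Fib S r w E (β / 2) y) := by
  obtain ⟨b1, hb1, s1⟩ := fine_sum h hc (hr.sat h) w (W := 1) (η := η) le_rfl (by rwa [nar_one])
  have s0 := h.hasSum_fibre r w (F := fun y => ind (E y)) (h.summable_re _ fun _ => abs_ind _)
  simp only [hc.fcn] at s0
  have pP := vl_pos h.pd (r ∩ S.st w)
  have pB := vl_pos h.pd (r \ S.st w)
  have s4 := h.hasSum_wt (r \ S.st w)
  have hη : 0 ≤ η := by linarith [h.one_le_mass hc (hr.sat h)]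
  have hm4 : S.mass (r \ S.st w) ≤ 1 + η := (Cls.mass_mono h hc hr (hr.sdiff_st w) sdiff_subset).trans hm
  have s5 := ((s0.div_const (vl S.G (r ∩ S.st w))).sub (s4.mul_right (β / 2))).sub s1
  refine le_trans ?_ (hasSum_le (fun y => ?_) s5 (h.summable_re _ fun _ => abs_ind _).hasSum)
  · rw [h.vl_st r w, mul_comm (vl _ _), ← mul_assoc, ← le_div_iff₀ pP] at hE
    have a7 : S.mass (r \ S.st w) * vl S.G (r \ S.st w) * (β / 2) ≤
        (1 + η) * vl S.G (r \ S.st w) * (β / 2) := by gcongr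
    nlinarith [mul_nonneg (mul_nonneg hη pB.le) (sub_nonneg.2 hβ1), mul_nonneg hη pB.le]
  have hH := h.fg_pos r w (toR y)
  have pv := vol_pos hH
  rw [mul_div_assoc, ← mul_sub, ← mul_sub, ← h.vol_fg r w (toR y), one_pow, one_smul]
  refine mul_le_mul_of_nonneg_left ?_ (MS.wt_nonneg _ _)
  by_cases hy : Fib S r w E (β / 2) y
  · rw [ind_pos hy]
    have a2 := (le_abs_self _).trans ((wt_gs hH 0).abs_le
      (F := fun x => ind (E (put _ x y))) fun _ => abs_ind _)
    rw [mul_one] at a2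
    have a3 := a2.trans_eq ((th_zero_eq hH).trans (mul_comm _ _))
    rw [← div_le_iff₀ pv] at a3
    linarith
  · rw [ind_neg hy]
    rw [Fib, not_le, ← div_lt_iff₀ pv] at hy
    linarith [one_le_th_zero hH.inv]

theorem tail_num' {D : ℕ} {β : ℝ} (hβ : 0 < β) :
    Real.exp (-(π * (D + 3 / β) / 2)) * (√2 ^ D * (3 / 2)) ≤ β / 2 := by
  have h1 : √2 ^ D ≤ Real.exp D := by
    rw [← mul_one (D : ℝ), Real.exp_nat_mul]
    refine pow_le_pow_left₀ (Real.sqrt_nonneg _) ?_ _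
    have := Real.add_one_le_exp 1
    exact Real.sqrt_le_iff.2 ⟨by linarith, by nlinarith⟩
  have h2 : 0 < 3 / β := by positivity
  have h3 : Real.exp (-(π * (D + 3 / β) / 2)) * Real.exp D ≤ Real.exp (-(3 / β)) := by
    rw [← Real.exp_add]
    refine Real.exp_le_exp.2 ?_
    nlinarith [Real.pi_gt_three, (Nat.cast_nonneg D : (0 : ℝ) ≤ D)]
  have h4 : Real.exp (-(3 / β)) ≤ β / 3 := by
    rw [Real.exp_neg, ← inv_div 3 β]
    exact inv_anti₀ h2 (by linarith [Real.add_one_le_exp (3 / β)])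
  have h5 := mul_le_mul_of_nonneg_left h1 (Real.exp_pos (-(π * (D + 3 / β) / 2))).le
  nlinarith

theorem nest_nonneg {P : Type*} [Fintype P] (H : Matrix P P ℝ) (lam : ℝ)
    {g : (Fin 4 → P → ℤ) → ℝ} (hg : ∀ x, 0 ≤ g x) : 0 ≤ nest H lam g :=
  tsum_nonneg fun _ => mul_nonneg (mul_pos (mul_pos (gs_pos _ _) (gs_pos _ _)) (gs_pos _ _)).le
    (tsum_nonneg fun _ => mul_nonneg (gs_pos _ _).le (hg _))

variable [Fintype V]

/-- a generic fibre -/
def Gen (S : MS V ι) (q : Finset ι) (A : Finset V) (w : V) (K : ℝ) (D M : ℕ) (β W : ℝ)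
    (y : ι → ℤ) : Prop :=
  th (W ^ 2 • S.fg (q \ S.sts A) w (toR y))⁻¹ 0 ≤ 3 / 2 ∧
    UF S (q \ S.st w) A ((M : ℝ) ^ 3 * (6 * K)) (toR y) ∧
    nest (S.fg (q \ S.sts A) w (toR y)) D (fun x => ind (¬ UF (nar (blow S 0) 3) (q4 S q w)
      (a4 A) (4 * K) (toR (asm S (q \ S.sts A) w y x)))) ≤ β ^ 4 / 512 *
        (vol (S.fg (q \ S.sts A) w (toR y)) ^ 2 *
          vol ((D : ℝ) • S.fg (q \ S.sts A) w (toR y)) ^ 2)

/-- most fibres are generic -/
theorem gen_bad (h : S.Ok) (hc : S.Cen) {q : Finset ι} (hq : Cls S q) {A : Finset V} {w : V}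
    (hw : w ∉ A) {K β W η : ℝ} (hK : 0 ≤ K) {D M : ℕ} (hD : q.card ≤ D) (hD1 : 1 ≤ D)
    (hM : 1 ≤ M) (hA : A.Nonempty ∨ (M : ℝ) ^ 3 * (6 * K) < 1) (hβ : 0 < β) (hβ1 : β ≤ 1)
    (hW2 : 3 * ((4 * K + 1) * (4 * D + 2 * A.card + 2)) ≤ W)
    (hW3 : ((M : ℝ) ^ 3 * (6 * K) + 1) * (D + 2 * A.card + 2) ≤ W) (hs : Smo S q 4 W η) :
    ∑' y, S.wt ((q \ S.sts A) \ S.st w) y * ind (¬ Gen S q A w K D M β W y) ≤
      2 ^ 18 * 7 ^ A.card * η / β ^ 4 * vl S.G ((q \ S.sts A) \ S.st w) := by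
  have hD' : (1 : ℝ) ≤ D := by exact_mod_cast hD1
  have hM' : (1 : ℝ) ≤ M := by exact_mod_cast hM
  have hA0 : (0 : ℝ) ≤ A.card := Nat.cast_nonneg _
  have hW0 : 1 ≤ W := by nlinarith
  have hr := cls_sdiff_sts hq A
  have hmq := hs.mass h hc hq (by norm_num) (by linarith : W ≠ 0)
  have hn := ok_nar h (by linarith : W ≠ 0)
  have hη : 0 ≤ η := by linarith [hn.one_le_mass (cen_nar hc W) ((hq.nar W).sat hn)]
  have hmono : ∀ {r}, Cls S r → r ⊆ q → (nar S W).mass r ≤ 1 + η := fun hr' e =>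
    (Cls.mass_mono hn (cen_nar hc W) (hq.nar W) (hr'.nar W) e).trans hmq
  have eB' : (q \ S.st w) \ S.sts A = (q \ S.sts A) \ S.st w := by
    ext i; simp only [mem_sdiff]; tauto
  have pB := vl_pos h.pd ((q \ S.sts A) \ S.st w)
  have hw' := wt_wt h ((q \ S.sts A) \ S.st w)
  obtain ⟨b1, hb1, s1⟩ := fine_sum h hc (hr.sat h) w hW0 (hmono hr sdiff_subset)
  have p7 : (1 : ℝ) ≤ 7 ^ A.card := one_le_pow₀ (by norm_num)
  have hb2 : ∑' y, S.wt ((q \ S.sts A) \ S.st w) y *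
      ind (¬ UF S (q \ S.st w) A ((M : ℝ) ^ 3 * (6 * K)) (toR y)) ≤
      500 * 7 ^ A.card * η * vl S.G ((q \ S.sts A) \ S.st w) := by
    rcases A.eq_empty_or_nonempty with rfl | h0
    · simp only [ind_neg (not_not.2 (uf_empty _ (hA.resolve_left (by simp)) _)), mul_zero,
        tsum_zero]
      positivity
    rw [← eB']
    exact uf_sum h hc (hq.sdiff_st w) h0 (le_trans (by
      have : ((q \ S.st w).card : ℝ) ≤ D := by
        exact_mod_cast (card_le_card sdiff_subset).trans hD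
      gcongr) hW3) (by positivity) (hmono (hq.sdiff_st w) sdiff_subset)
  obtain ⟨b3, hb3, s3⟩ : ∃ b ≤ 500 * 7 ^ A.card * η * vl S.G ((q \ S.sts A) \ S.st w),
      HasSum (fun y => S.wt ((q \ S.sts A) \ S.st w) y *
        (nest (S.fg (q \ S.sts A) w (toR y)) D (fun x => ind (¬ UF (nar (blow S 0) 3) (q4 S q w)
          (a4 A) (4 * K) (toR (asm S (q \ S.sts A) w y x)))) /
          (vol (S.fg (q \ S.sts A) w (toR y)) ^ 2 *
          vol ((D : ℝ) • S.fg (q \ S.sts A) w (toR y)) ^ 2))) b := by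
    rcases A.eq_empty_or_nonempty with rfl | h0
    · have h1 : 4 * K < 1 := by
        nlinarith [hA.resolve_left (by simp), one_le_pow₀ hM' (n := 3)]
      refine ⟨0, by positivity, ?_⟩
      simp only [show a4 (∅ : Finset V) = ∅ from rfl, ind_neg (not_not.2 (uf_empty _ h1 _)), nest,
        mul_zero, tsum_zero, zero_div]
      exact hasSum_zero
    exact bad_sum h hc hq h0 hw (by positivity) hD hD1 hW2 hs
  have s2 := (hw'.summ (F := fun y => ind (¬ UF S (q \ S.st w) A ((M : ℝ) ^ 3 * (6 * K)) (toR y)))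
    fun _ => abs_ind _).hasSum
  have he : 0 < β ^ 4 / 512 := by positivity
  have s5 := ((s1.mul_left 2).add s2).add (s3.div_const (β ^ 4 / 512))
  refine le_trans (hasSum_le (fun y => ?_) (hw'.summ fun _ => abs_ind _).hasSum s5) ?_
  · have hH := h.fg_pos (q \ S.sts A) w (toR y)
    have pv := vol_pos hH
    have pv2 := vol_pos (hH.smul (by linarith : (0 : ℝ) < D))
    rw [mul_left_comm, mul_div_assoc, ← mul_add, ← mul_add]
    refine mul_le_mul_of_nonneg_left ?_ (hw'.1 y)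
    have a1 := one_le_th_zero (hH.smul (by positivity : 0 < W ^ 2)).inv
    have a2 := ind_nonneg (¬ UF S (q \ S.st w) A ((M : ℝ) ^ 3 * (6 * K)) (toR y))
    have a3 := nest_nonneg (S.fg (q \ S.sts A) w (toR y)) D (g := fun x => ind (¬ UF
      (nar (blow S 0) 3) (q4 S q w) (a4 A) (4 * K) (toR (asm S (q \ S.sts A) w y x))))
      fun _ => ind_nonneg _
    have a4 := div_nonneg (div_nonneg a3 (mul_pos (pow_pos pv 2) (pow_pos pv2 2)).le) he.le
    by_cases g : Gen S q A w K D M β W y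
    · rw [ind_neg (not_not.2 g)]; linarith
    rw [ind_pos g]
    simp only [Gen, not_and_or, not_le] at g
    rcases g with g | g | g
    · linarith
    · rw [ind_pos g]; linarith
    · rw [← lt_div_iff₀ (by positivity), ← one_lt_div he] at g
      linarith
  · have a0 : β ^ 4 ≤ 1 := pow_le_one₀ hβ.le hβ1
    have a1 : b3 / (β ^ 4 / 512) ≤
        256000 * (7 ^ A.card * η / β ^ 4 * vl S.G ((q \ S.sts A) \ S.st w)) := by
      rw [div_le_iff₀ he]
      refine hb3.trans (le_of_eq ?_)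
      field_simp; ring
    have a2 : 7 ^ A.card * η * vl S.G ((q \ S.sts A) \ S.st w) ≤
        7 ^ A.card * η / β ^ 4 * vl S.G ((q \ S.sts A) \ S.st w) :=
      mul_le_mul_of_nonneg_right (le_div_self (by positivity) (by positivity) a0) pB.le
    have a3 := mul_le_mul_of_nonneg_right (le_mul_of_one_le_left hη p7) pB.le
    have a4 := mul_nonneg hη pB.le
    rw [mul_assoc (2 ^ 18), mul_div_assoc (2 ^ 18), mul_assoc (2 ^ 18)]
    nlinarith

/-- a dense set of nearly integral slices in a generic fibre: slope and constant -/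
theorem fib_gen (h : S.Ok) (hc : S.Cen) {q : Finset ι} (hq : Cls S q) {A : Finset V} {w : V}
    (hw : w ∉ A) {Φ : (ι → ℝ) → ℝ} (hΦ : Fm S q A Φ) (hΦw : Aff (S.st w) Φ) {y : ι → ℤ}
    {K β W : ℝ} (hK : 0 ≤ K) {D M : ℕ} (hD : q.card ≤ D) (hD1 : 1 ≤ D) (hβ : 0 < β)
    (hM : 5 ≤ M * (β ^ 4 / 2 ^ 17) ^ 2) (hW : 64 * (D : ℝ) ^ 2 * (M : ℝ) ^ 2 ≤ W)
    (hG : Gen S q A w K D M (β / 2) W y) {E : (ι → ℤ) → Prop}
    (hE : ∀ x, E x → NF S q A Φ K (toR x)) (hm : Fib S (q \ S.sts A) w E β y) :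
    ∃ n : ℕ, 1 ≤ n ∧ n ≤ M ∧ NF S q (insert w A) (fun z => n * lab S w Φ z)
      (2 * M * K + 32 * D * (M : ℝ) ^ 3 * K) (toR y) ∧
      NF S (q \ S.st w) A (fun z => n * Φ (mix (S.st w) 0 z))
        (M * K + 32 * D * (M : ℝ) ^ 3 * K * (D + 3 / β)) (toR y) := by
  classical
  have hH := h.fg_pos (q \ S.sts A) w (toR y)
  have hD' : (1 : ℝ) ≤ D := by exact_mod_cast hD1
  have hM1 : (1 : ℝ) ≤ M := by
    rcases Nat.eq_zero_or_pos M with rfl | h0
    · simp at hM; linarith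
    · exact_mod_cast h0
  have hW1 : (1 : ℝ) ≤ W := by nlinarith [mul_le_mul hM1 hM1 zero_le_one (by linarith)]
  have f1 := (th_inv_smul hH one_pos (one_le_pow₀ hW1 (n := 2))).trans hG.1
  rw [one_smul] at f1
  have hρ : 1 ≤ D + 3 / β := le_add_of_le_of_nonneg hD' (by positivity)
  obtain ⟨n, a1, a2, a3, a4⟩ := fib_aff h hc hq hw hΦ hΦw y hK D M hD hD1 (half_pos hβ)
    (hM.trans_eq (by ring)) hW hG.1 hG.2.1
    {x | E (put _ x y) ∧ qq (S.fg (q \ S.sts A) w (toR y)) (toR x - 0) < D + 3 / β}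
    (fun x hx => hE _ hx.1) (by
      have t1 := tail_norm hH 0 (D + 3 / β)
      have t2 : √2 ^ Fintype.card ↥((q \ S.sts A) ∩ S.st w) ≤ √2 ^ D :=
        pow_le_pow_right₀ (Real.one_le_sqrt.2 (by norm_num)) (by
          rw [Fintype.card_coe]
          exact (card_le_card (inter_subset_left.trans sdiff_subset)).trans hD)
      have pv := vol_pos hH
      have t3 : th (S.fg (q \ S.sts A) w (toR y)) 0 ≤
          3 / 2 * vol (S.fg (q \ S.sts A) w (toR y)) := by
        rw [th_zero_eq hH, mul_comm]; gcongr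
      have t4 := t1.trans (mul_le_mul_of_nonneg_left (mul_le_mul t2 t3
        (zero_le_one.trans (one_le_th_zero hH)) (by positivity)) (Real.exp_pos _).le)
      have t5 := mul_le_mul_of_nonneg_right (tail_num' (D := D) hβ) pv.le
      have s1 := (wt_gs hH 0).summ (F := fun x => ind (x ∈ {x | E (put _ x y) ∧
        qq (S.fg (q \ S.sts A) w (toR y)) (toR x - 0) < D + 3 / β})) fun _ => abs_ind _
      have s2 := summable_ind (summable_gs hH 0)
        fun z => D + 3 / β ≤ qq (S.fg (q \ S.sts A) w (toR y)) (toR z - 0)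
      have t6 := hm.trans ((Summable.tsum_le_tsum (fun x => by
        have g0 := gs_pos (S.fg (q \ S.sts A) w (toR y)) (toR x - 0)
        by_cases e : E (put _ x y)
        · split_ifs with e2
          · rw [ind_pos e, mul_one]
            exact le_add_of_nonneg_left (mul_nonneg g0.le (ind_nonneg _))
          · rw [ind_pos e, ind_pos ⟨e, not_le.1 e2⟩, add_zero]
        · rw [ind_neg e, mul_zero]
          refine add_nonneg (mul_nonneg g0.le (ind_nonneg _)) ?_
          split_ifs <;> linarith) ((wt_gs hH 0).summ fun _ => abs_ind _) (s1.add s2)).trans_eq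
          (s1.tsum_add s2))
      nlinarith) hG.2.2
  refine ⟨n, a1, a2, a3, a4 _ fun x hx => Real.sqrt_le_iff.2 ⟨by linarith, ?_⟩⟩
  have := hx.2
  rw [sub_zero] at this
  nlinarith

end

end Vale.Agent.P057T1
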