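import Vale.Agent.P057T1.Dv2

/-!
Dense vanishing and bias: a multiple of the form is an integer form plus a small form.
-/

set_option linter.unusedSectionVars false

open Matrix Finset
open scoped Real
open Vale.Agent.P267.H775 Vale.Agent.P057G Vale.Agent.P057MA Vale.Agent.P057HU

namespace Vale.Agent.P057T1

noncomputable section

variable {V ι : Type*} [DecidableEq ι] [Fintype ι] [DecidableEq V] {S : MS V ι}

/-- growth of the exponents -/
def ex : ℕ → ℕ → ℕ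
  | 0, e => e
  | n + 1, e => ex n (25 * e + 65)

theorem le_ex : ∀ n e, e ≤ ex n e
  | 0, _ => le_rfl
  | n + 1, e => le_trans (by omega) (le_ex n (25 * e + 65))

theorem NF.mono {q : Finset ι} {A : Finset V} {Φ : (ι → ℝ) → ℝ} {K K' : ℝ} {y : ι → ℝ}
    (h : NF S q A Φ K y) (hK : K ≤ K') : NF S q A Φ K' y := by
  obtain ⟨η, a, b, c⟩ := h
  exact ⟨η, a, b, fun z hz => (c z hz).trans hK⟩

theorem step_num {P : ℝ} (hP : 4 ≤ P) (e f : ℕ) {D a M : ℕ} (hD : (D : ℝ) ≤ P) (ha : a ≤ f)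
    (hM : M = ⌈P ^ (8 * e + 19)⌉₊) {β : ℝ} (hβ : 1 ≤ β * P ^ e) (hβ0 : 0 < β) :
    5 ≤ M * (β ^ 4 / 2 ^ 17) ^ 2 ∧ (M : ℝ) ≤ P ^ (8 * e + 20) ∧
    64 * (D : ℝ) ^ 2 * (M : ℝ) ^ 2 ≤ P ^ (25 * e + 65 + f) ∧
    3 * ((4 * P ^ e + 1) * (4 * D + 2 * a + 2)) ≤ P ^ (25 * e + 65 + f) ∧
    ((M : ℝ) ^ 3 * (6 * P ^ e) + 1) * (D + 2 * a + 2) ≤ P ^ (25 * e + 65 + f) ∧
    2 * M * P ^ e + 32 * D * (M : ℝ) ^ 3 * P ^ e ≤ P ^ (25 * e + 65) ∧
    1 ≤ β / 4 / M * P ^ (25 * e + 65) := by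
  have hP1 : 1 ≤ P := by linarith
  have hP0 : 0 < P := by linarith
  have pw : ∀ n, 1 ≤ P ^ n := fun n => one_le_pow₀ hP1
  have mono : ∀ {n m}, n ≤ m → P ^ n ≤ P ^ m := fun e => pow_le_pow_right₀ hP1 e
  have p4 : ∀ n : ℕ, (4 : ℝ) ^ n ≤ P ^ n := fun n => pow_le_pow_left₀ (by norm_num) hP n
  have hM1 : P ^ (8 * e + 19) ≤ M := hM ▸ Nat.le_ceil _
  have hM2 : (M : ℝ) ≤ P ^ (8 * e + 20) := by
    have := (Nat.ceil_lt_add_one (pow_pos hP0 (8 * e + 19)).le).le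
    rw [← hM] at this
    rw [pow_succ]; nlinarith [pw (8 * e + 19)]
  have hM0 : (0 : ℝ) < M := (pow_pos hP0 _).trans_le hM1
  have hf : (4 * D + 2 * a + 2 : ℝ) ≤ P ^ (f + 3) := by
    have h1 : (a : ℝ) + 1 ≤ 4 ^ f := by
      have : a + 1 ≤ 4 ^ f := (Nat.succ_le_succ ha).trans (Nat.lt_pow_self (by norm_num))
      exact_mod_cast this
    have h2 := p4 f
    have h3 := pw f
    have h4 : 16 * P ≤ P ^ 3 := by nlinarith [p4 2]
    rw [pow_add]; nlinarith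
  have hD0 : (0 : ℝ) ≤ D := Nat.cast_nonneg _
  have ha0 : (0 : ℝ) ≤ a := Nat.cast_nonneg _
  have hM3 : (M : ℝ) ^ 3 ≤ P ^ (24 * e + 60) := by
    rw [show 24 * e + 60 = (8 * e + 20) * 3 by ring, pow_mul]; gcongr
  refine ⟨?_, hM2, ?_, ?_, ?_, ?_, ?_⟩
  · have h1 : 1 ≤ (β * P ^ e) ^ 8 := one_le_pow₀ hβ
    have h2 := p4 19
    calc (5 : ℝ) ≤ 4 ^ 19 * 1 / 2 ^ 34 := by norm_num
      _ ≤ P ^ 19 * (β * P ^ e) ^ 8 / 2 ^ 34 := by gcongr
      _ = P ^ (8 * e + 19) * (β ^ 4 / 2 ^ 17) ^ 2 := by ring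
      _ ≤ _ := by gcongr
  · calc 64 * (D : ℝ) ^ 2 * (M : ℝ) ^ 2 ≤ P ^ 3 * P ^ 2 * (P ^ (8 * e + 20)) ^ 2 := by
          gcongr; linarith [p4 3]
      _ = P ^ (16 * e + 45) := by ring
      _ ≤ _ := mono (by omega)
  · calc 3 * ((4 * P ^ e + 1) * (4 * D + 2 * a + 2)) = (12 * P ^ e + 3) * (4 * D + 2 * a + 2) := by
          ring
      _ ≤ (P ^ 2 * P ^ e) * P ^ (f + 3) := by gcongr; nlinarith [p4 2, pw e]
      _ = P ^ (e + 5 + f) := by ring
      _ ≤ _ := mono (by omega)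
  · calc ((M : ℝ) ^ 3 * (6 * P ^ e) + 1) * (D + 2 * a + 2) ≤
          (P ^ (24 * e + 60) * P ^ e * P ^ 2) * P ^ (f + 3) := by
          refine mul_le_mul ?_ (by linarith) (by positivity) (by positivity)
          have h1 := mul_le_mul_of_nonneg_right hM3 (pow_pos hP0 e).le
          have h2 := one_le_mul_of_one_le_of_one_le (pw (24 * e + 60)) (pw e)
          nlinarith [p4 2]
      _ = P ^ (25 * e + 65 + f) := by ring
  · have h1 : (M : ℝ) ≤ P ^ (24 * e + 60) := hM2.trans (mono (by omega))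
    calc 2 * M * P ^ e + 32 * D * (M : ℝ) ^ 3 * P ^ e ≤
          2 * P ^ (24 * e + 60) * P ^ e + 32 * P * P ^ (24 * e + 60) * P ^ e := by gcongr
      _ = (2 + 32 * P) * P ^ (25 * e + 60) := by ring
      _ ≤ P ^ 5 * P ^ (25 * e + 60) := by
          gcongr
          have : P ^ 5 = P ^ 4 * P := by ring
          nlinarith [p4 4]
      _ = _ := by ring
  · rw [div_div, div_mul_eq_mul_div, le_div_iff₀ (by positivity)]
    calc 1 * (4 * (M : ℝ)) ≤ (β * P ^ e) * (P * P ^ (8 * e + 20)) := by gcongr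
      _ = β * P ^ (9 * e + 21) := by ring
      _ ≤ _ := mul_le_mul_of_nonneg_left (mono (by omega)) hβ0.le

variable [Fintype V]

theorem dv_iter (h : S.Ok) (hc : S.Cen) {q : Finset ι} (hq : Cls S q) {F : Finset V}
    (hF : ∀ i ∈ q, S.fc i ⊆ F) {P W η : ℝ} (hP : 4 ≤ P) (hD : (q.card : ℝ) ≤ P) (hη0 : 0 ≤ η)
    (hs : Smo S q 4 W η) : ∀ (n e : ℕ) (A : Finset V) (Φ : (ι → ℝ) → ℝ) (β : ℝ), A.Nonempty →
      A ⊆ F → (F \ A).card = n → Fm S q F Φ → β ≤ 1 → 1 ≤ β * P ^ e →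
      P ^ (ex n e + F.card) ≤ W → η * P ^ (ex n e + 2 * F.card) ≤ 1 →
      β * vl S.G (q \ S.sts A) ≤ ∑' y, S.wt (q \ S.sts A) y * ind (NF S q A Φ (P ^ e) (toR y)) →
      ∃ Q : ℕ, 0 < Q ∧ Q * P ^ e ≤ P ^ ex n e ∧ Near S q F (fun z => Q * Φ z) (P ^ ex n e) := by
  have hP1 : 1 ≤ P := by linarith
  have hP0 : 0 < P := by linarith
  have mono : ∀ {n m}, n ≤ m → P ^ n ≤ P ^ m := fun e => pow_le_pow_right₀ hP1 e
  intro n
  induction n with
  | zero =>
    intro e A Φ β _ hA hn _ _ hβ _ _ hm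
    obtain rfl : A = F := Subset.antisymm hA (sdiff_eq_empty_iff_subset.1 (card_eq_zero.1 hn))
    have hβ0 : 0 < β := (mul_pos_iff_of_pos_right (pow_pos hP0 e)).1 (by linarith)
    obtain ⟨y, hy⟩ : ∃ y, NF S q A Φ (P ^ e) (toR y) := by
      by_contra h0
      simp only [ind_neg fun a => h0 ⟨_, a⟩, mul_zero, tsum_zero] at hm
      exact absurd hm (not_le.2 (mul_pos hβ0 (vl_pos h.pd _)))
    have e1 : q ∩ S.sts A = q := inter_eq_left.2 fun i hi => by
      obtain ⟨v, hv⟩ := hc.ne i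
      exact MS.mem_sts.2 ⟨v, hF i hi hv, hv⟩
    obtain ⟨I, h1, h2, h3⟩ := hy
    rw [e1] at h1 h3
    refine ⟨1, one_pos, by simp [ex], I, h1, h2, fun z hz => ?_⟩
    simpa [ex] using h3 z ⟨by simp, hz⟩
  | succ n ih =>
    intro e A Φ β hA0 hA hn hΦ hβ1 hβ hW hη hm
    have hβ0 : 0 < β := (mul_pos_iff_of_pos_right (pow_pos hP0 e)).1 (by linarith)
    obtain ⟨w, hw⟩ : (F \ A).Nonempty := card_pos.1 (by omega)
    obtain ⟨hwF, hwA⟩ := mem_sdiff.1 hw
    have hD' : ((max q.card 1 : ℕ) : ℝ) ≤ P := by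
      rw [Nat.cast_max]; exact max_le hD (by simpa using hP1)
    obtain ⟨a1, a2, a3, a4, a5, a6, a7⟩ := step_num hP e F.card hD' (card_le_card hA) rfl hβ hβ0
    have b1 : P ^ (25 * e + 65 + F.card) ≤ W :=
      (mono (Nat.add_le_add_right (le_ex n _) _)).trans hW
    obtain ⟨m, hm1, hm2, hm3⟩ := dv_step h hc hq hA0 hwA
      (hΦ.mono le_rfl (insert_subset hwF hA)) (pow_pos hP0 e).le (le_max_left _ _)
      (le_max_right _ _) hβ0 hβ1 a1 (a3.trans b1) (a4.trans b1) (a5.trans b1) hη0 (by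
        have c1 : (2 : ℝ) ^ 26 * 7 ^ A.card * P ^ (5 * e) ≤ P ^ (ex (n + 1) e + 2 * F.card) :=
          calc (2 : ℝ) ^ 26 * 7 ^ A.card * P ^ (5 * e) ≤
                P ^ 13 * (P ^ 2) ^ A.card * P ^ (5 * e) := by
                gcongr
                · exact le_trans (by norm_num) (pow_le_pow_left₀ (by norm_num) hP 13)
                · nlinarith
            _ = P ^ (13 + 5 * e + 2 * A.card) := by ring
            _ ≤ _ := mono (by
                have := le_ex n (25 * e + 65)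
                have := card_le_card hA
                simp only [ex]; omega)
        have c2 : 1 ≤ β ^ 5 * P ^ (5 * e) := by
          rw [mul_comm 5 e, pow_mul, ← mul_pow]; exact one_le_pow₀ hβ
        refine le_of_mul_le_mul_right ?_ (pow_pos hP0 (5 * e))
        nlinarith [mul_le_mul_of_nonneg_left c1 hη0]) hs hm
    have hM1 : (1 : ℝ) ≤ ⌈P ^ (8 * e + 19)⌉₊ := by exact_mod_cast hm1.trans hm2
    obtain ⟨Q, hQ0, hQ1, hQ2⟩ := ih (25 * e + 65) (insert w A) (fun z => m * Φ z) _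
      (insert_nonempty _ _) (insert_subset hwF hA) (by
        rw [sdiff_insert, card_erase_of_mem hw, hn]; rfl) (hΦ.smul m) (by
        rw [div_le_one (by linarith)]; linarith) a7 hW hη (hm3.trans (Summable.tsum_le_tsum
          (fun y => mul_le_mul_of_nonneg_left (ind_mono fun a => a.mono a6) (MS.wt_nonneg _ _))
          (h.summable_re _ fun _ => abs_ind _) (h.summable_re _ fun _ => abs_ind _)))
    refine ⟨Q * m, Nat.mul_pos hQ0 hm1, le_trans ?_ hQ1, by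
      simpa only [Nat.cast_mul, mul_assoc, ex] using hQ2⟩
    have : (m : ℝ) ≤ P ^ (8 * e + 20) := le_trans (by exact_mod_cast hm2) a2
    calc ((Q * m : ℕ) : ℝ) * P ^ e ≤ Q * (P ^ (8 * e + 20) * P ^ e) := by
          rw [Nat.cast_mul, mul_assoc]; gcongr
      _ ≤ _ := by
          rw [← pow_add]
          exact mul_le_mul_of_nonneg_left (mono (by omega)) (Nat.cast_nonneg _)

omit [Fintype V] in
theorem sts_single (v : V) : S.sts {v} = S.st v := by
  ext i; simp [MS.mem_sts, MS.mem_st]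

omit [Fintype V] in
/-- a biased form is nearly integral on many fibres over a vertex -/
theorem bias_base (h : S.Ok) (hc : S.Cen) {q : Finset ι} (hq : Cls S q) {v : V}
    {Φ : (ι → ℝ) → ℝ} (ho : On q Φ) (hΦ : Lin (S.st v) Φ) {δ W η : ℝ} (hδ : 0 < δ)
    (hδ1 : δ ≤ 1) (hW : 3 ≤ W) (hη : 100 * η ≤ δ) (hm : (nar S W).mass q ≤ 1 + η)
    (hb : δ * vl S.G q ≤ S.bias q Φ) : δ / 4 * vl S.G (q \ S.sts {v}) ≤
      ∑' y, S.wt (q \ S.sts {v}) y * ind (NF S q {v} Φ (2 / δ) (toR y)) := by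
  obtain ⟨b1, hb1, s1⟩ := fine_sum h hc (hq.sat h) v (by linarith : 1 ≤ W) hm
  have s0 := h.hasSum_bias_re hc q v hΦ
  have s4 := h.hasSum_wt (q \ S.st v)
  have pP := vl_pos h.pd (q ∩ S.st v)
  have pB := vl_pos h.pd (q \ S.st v)
  have hm4 : S.mass (q \ S.st v) ≤ 1 + η := by
    have := mass_nar_mono h hc one_pos (by linarith : 1 ≤ W) q
    rw [nar_one] at this
    exact (Cls.mass_mono h hc hq (hq.sdiff_st v) sdiff_subset).trans (this.trans hm)
  have s5 := (((s0.div_const (vl S.G (q ∩ S.st v))).sub (s4.mul_right (δ / 2))).mul_left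
    (2 / 3)).sub (s1.mul_left 2)
  simp only [sts_single]
  refine le_trans ?_ (hasSum_le (fun y => ?_) s5 (h.summable_re _ fun _ => abs_ind _).hasSum)
  · rw [h.vl_st q v, mul_comm (vl _ _), ← mul_assoc, ← le_div_iff₀ pP] at hb
    have a7 : S.mass (q \ S.st v) * vl S.G (q \ S.st v) * (δ / 2) ≤
        (1 + 1 / 100) * vl S.G (q \ S.st v) * (δ / 2) := by gcongr; linarith
    have a8 := mul_pos hδ pB
    have a9 := mul_le_mul_of_nonneg_right hη pB.le
    nlinarith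
  have hH := h.fg_pos q v (toR y)
  have e : ∀ a m d : ℝ, 2 / 3 * (a * (vl S.G (q ∩ S.st v) * m) / vl S.G (q ∩ S.st v) -
      a * (δ / 2)) - 2 * (a * d) = a * (2 / 3 * (m - δ / 2) - (2 * d + 0 + 0 / 1)) :=
    fun _ _ _ => by field_simp; ring
  rw [e]
  have a1 := th_inv_smul hH one_pos (one_le_pow₀ (by linarith : 1 ≤ W) (n := 2))
  rw [one_smul] at a1
  refine mul_le_mul_of_nonneg_left (good_num (ind_nonneg _) ?_ le_rfl le_rfl one_pos hδ ?_
    fun g1 g2 _ _ => (ind_pos ?_).ge) (MS.wt_nonneg _ _)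
  · linarith [one_le_th_zero (hH.smul (by positivity : 0 < W ^ 2)).inv]
  · linarith [th_le_th_zero hH.inv (S.fsl q v Φ (toR y))]
  have a2 := th_inv_smul hH (a := 8) (b := W ^ 2) (by norm_num) (by nlinarith)
  rw [inv_smul_mat (by norm_num) hH, ← one_div] at a2
  obtain ⟨k, hk⟩ := near_of_th hH.inv (by linarith) _ (half_pos hδ) g1
  unfold NF
  rw [sts_single]
  refine ⟨fun z => ∑ j : ↥(q ∩ S.st v), k j * z j, ⟨On.sum _ fun j _ =>
    (On.const _ _).map₂ (On.coord j.2) (· * ·), fun u hu => ?_⟩,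
    IntV.sum _ fun j _ => (IntV.const _).mul (IntV.coord _), fun z hz => ?_⟩
  · rw [mem_singleton.1 hu]
    exact Lin.sum _ _ fun j _ => P057T1.lin_coord (mem_inter.1 j.2).2
  have e1 : ∀ j ∈ q \ S.st v, z j = toR y j := fun j hj => hz.1 j (by
    simp only [mem_sdiff, mem_inter] at hj ⊢; tauto)
  have e2 : ∀ a, Φ (mix (S.st v) a z) = Φ (mix (S.st v) a (toR y)) := fun a => ho _ _ fun j hj => by
    by_cases h1 : j ∈ S.st v
    · rw [mix_pos _ _ h1, mix_pos _ _ h1]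
    · rw [mix_neg _ _ h1, mix_neg _ _ h1, e1 j (mem_sdiff.2 ⟨hj, h1⟩)]
  have e3 : Φ z - ∑ j : ↥(q ∩ S.st v), k j * z j =
      -((fun j : ↥(q ∩ S.st v) => z j) ⬝ᵥ (toR k - S.fsl q v Φ (toR y))) := by
    have := aff_expand ho hΦ.aff z (toR y)
    rw [← e2, mix_self, hΦ.zero, zero_add, ← sum_coe_sort] at this
    rw [this, dotProduct, ← sum_sub_distrib, ← sum_neg_distrib]
    exact sum_congr rfl fun j _ => by simp only [Pi.sub_apply, toR_apply, MS.fsl]; ring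
  rw [e3, abs_neg]
  refine abs_le_of_sq_le_sq' ?_ (by positivity) |> abs_le.2
  refine (dot_sq_le hH _ _).trans ?_
  rw [← ln2_fg h hc hq v (toR y) z e1]
  have a3 := qq_nonneg hH.inv.posSemidef (toR k - S.fsl q v Φ (toR y))
  have a4 := Real.log_le_sub_one_of_pos (show 0 < 2 / (δ / 2) by positivity)
  have a5 : 2 / (δ / 2) = 2 * (2 / δ) := by field_simp
  have a6 : 2 ≤ 2 / δ := by rw [le_div_iff₀ hδ]; linarith
  have a7 := mul_le_of_le_one_left a3 hz.2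
  nlinarith [Real.pi_gt_three]

/-- bias forces a multiple of the form to be integral up to a small form -/
theorem bias_near : ∃ c : ℕ → ℕ, ∀ {V ι : Type*} [DecidableEq ι] [Fintype ι] [DecidableEq V]
    [Fintype V] {S : MS V ι}, S.Ok → S.Cen → ∀ {q : Finset ι} {F : Finset V}, Cls S q →
    (∀ i ∈ q, S.fc i ⊆ F) → ∀ {Φ : (ι → ℝ) → ℝ}, Fm S q F Φ → ∀ {δ D W η : ℝ} {N : ℕ}, 0 < δ →
    δ ≤ 1 / 2 → 2 ≤ D → (q.card : ℝ) ≤ D → (D / δ) ^ c F.card ≤ W →
    η ≤ (δ / D) ^ c F.card → 4 ≤ N → Smo S q N W η → δ * vl S.G q ≤ S.bias q Φ →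
    ∃ Q : ℕ, 0 < Q ∧ (Q : ℝ) ≤ (D / δ) ^ c F.card ∧
      Near S q F (fun z => Q * Φ z) ((D / δ) ^ c F.card) := by
  refine ⟨fun f => ex (f - 1) 2 + 2 * f + 5, ?_⟩
  intro V ι _ _ _ _ S h hc q F hq hF Φ hΦ δ D W η N hδ hδ1 hD hqD hW hη hN hs hb
  have hP2 : 2 / δ ≤ D / δ := by gcongr
  have hP : 4 ≤ D / δ := le_trans (by rw [le_div_iff₀ hδ]; linarith) hP2
  have hP1 : 1 ≤ D / δ := by linarith
  have mono : ∀ {n m}, n ≤ m → (D / δ) ^ n ≤ (D / δ) ^ m := fun e => pow_le_pow_right₀ hP1 e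
  beta_reduce at hW hη ⊢
  rcases F.eq_empty_or_nonempty with rfl | ⟨v, hv⟩
  · refine ⟨1, one_pos, by simpa using one_le_pow₀ hP1, fun _ => round (Φ 0),
      ⟨On.const _ _, by simp⟩, IntV.const _, fun z _ => ?_⟩
    have : Φ z = Φ 0 := hΦ.on _ _ fun i hi =>
      absurd (subset_empty.1 (hF i hi)) (hc.ne i).ne_empty
    simp only [Nat.cast_one, one_mul, this]
    exact (abs_sub_round _).trans (le_trans (by norm_num) (one_le_pow₀ hP1))
  have hW4 : 4 ≤ W := le_trans (hP.trans (le_self_pow₀ hP1 (by omega))) hW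
  have hs' : Smo S q 4 W (max η 0) := hs.mono h hc hq hq le_rfl hN (by linarith) le_rfl
    (le_max_left _ _)
  have hη' : max η 0 * (D / δ) ^ (ex (F.card - 1) 2 + 2 * F.card + 5) ≤ 1 := by
    rw [← le_div_iff₀ (by positivity), one_div, ← inv_pow, inv_div]
    exact max_le hη (by positivity)
  have h5 : 100 ≤ δ * (D / δ) ^ 5 := by
    have a1 : 2 ≤ δ * (D / δ) := by rw [mul_div_cancel₀ _ hδ.ne']; exact hD
    have a2 := pow_le_pow_left₀ (by norm_num) hP 4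
    rw [pow_succ' _ 4, ← mul_assoc]; nlinarith
  have h1 := bias_base h hc hq hΦ.on (hΦ.lin v hv) hδ (by linarith) (by linarith)
    (η := max η 0) (by
      have a1 := mul_le_mul_of_nonneg_left (mono (show 5 ≤ ex (F.card - 1) 2 + 2 * F.card + 5 by
        omega)) (le_max_right η 0)
      refine le_of_mul_le_mul_right ?_ (pow_pos (by linarith : 0 < D / δ) 5)
      nlinarith) (hs'.mass h hc hq (by norm_num) (by linarith)) hb
  obtain ⟨Q, a1, a2, a3⟩ := dv_iter h hc hq hF hP (hqD.trans (by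
      rw [le_div_iff₀ hδ]; nlinarith)) (le_max_right η 0) hs' (F.card - 1) 2 {v} Φ (δ / 4)
    (singleton_nonempty v) (singleton_subset_iff.2 hv) (by
      rw [sdiff_singleton_eq_erase, card_erase_of_mem hv]) hΦ (by linarith) (by
      have a1 : 2 ≤ δ * (D / δ) := by rw [mul_div_cancel₀ _ hδ.ne']; exact hD
      nlinarith) ((mono (by omega)).trans hW)
    (le_trans (mul_le_mul_of_nonneg_left (mono (by omega)) (le_max_right η 0)) hη')
    (h1.trans (Summable.tsum_le_tsum (fun y => mul_le_mul_of_nonneg_left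
      (ind_mono fun a => a.mono (by nlinarith)) (MS.wt_nonneg _ _))
      (h.summable_re _ fun _ => abs_ind _) (h.summable_re _ fun _ => abs_ind _)))
  refine ⟨Q, a1, le_trans ?_ (a2.trans (mono (by omega))), a3.mono (mono (by omega))⟩
  exact le_mul_of_one_le_right (Nat.cast_nonneg _) (one_le_pow₀ hP1)

end

end Vale.Agent.P057T1
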