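import Vale.Agent.P057T1.Gen
import Vale.Agent.P057T1.Bias
import Vale.Agent.P057MA.Lift

/-!
Dense vanishing for multi-affine functions.
-/

set_option linter.unusedSectionVars false

open Matrix Finset
open scoped Real
open Vale.Agent.P267.H775 Vale.Agent.P057G Vale.Agent.P057MA Vale.Agent.P057HU

namespace Vale.Agent.P057T1

noncomputable section

variable {V ι : Type*} [DecidableEq ι] [Fintype ι] [DecidableEq V] {S : MS V ι}

/-- near an integer function that is linear along `A` and affine along `B` -/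
def NA (S : MS V ι) (q : Finset ι) (A B : Finset V) (f : (ι → ℝ) → ℝ) (K : ℝ) : Prop :=
  ∃ I, Fm S q A I ∧ (∀ v ∈ B, Aff (S.st v) I) ∧ IntV I ∧ Nle S q (fun z => f z - I z) K

theorem NA.mono {q : Finset ι} {A B : Finset V} {f : (ι → ℝ) → ℝ} {K K' : ℝ}
    (h : NA S q A B f K) (hK : K ≤ K') : NA S q A B f K' := by
  obtain ⟨I, a, b, c, d⟩ := h
  exact ⟨I, a, b, c, d.mono hK⟩

theorem NA.near {q : Finset ι} {A B : Finset V} {f : (ι → ℝ) → ℝ} {K : ℝ}
    (h : NA S q A B f K) : Near S q A f K := by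
  obtain ⟨I, a, -, c, d⟩ := h
  exact ⟨I, a, c, d⟩

theorem ln2_kill (h : S.Ok) (hc : S.Cen) {q : Finset ι} (hq : Cls S q) (w : V) (z : ι → ℝ) :
    ln2 S q (mix (S.st w) 0 z) ≤ ln2 S q z := by
  rw [ln2_split h (h.sat_st w) q, ln2_split h (h.sat_st w) q z]
  refine add_le_add (le_of_eq_of_le ?_ (ln2_nonneg h z)) (le_of_eq (ln2_congr fun j hj => ?_))
  · rw [ln2, show msk (q ∩ S.st w) (mix (S.st w) 0 z - S.p (mix (S.st w) 0 z)) = 0 from
      funext fun j => ?_, qq_zero]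
    by_cases hj : j ∈ q ∩ S.st w
    · have h1 := (mem_inter.1 hj).2
      rw [msk_pos _ hj, Pi.sub_apply, mix_pos _ _ h1, hc.zero w j (S.mem_st.1 h1)]; simp
    · exact msk_neg _ hj
  · have e : ∀ i ∈ q \ S.st w, mix (S.st w) 0 z i = z i := fun i hi =>
      mix_neg _ _ (mem_sdiff.1 hi).2
    rw [e j hj, cls_p h (hq.sdiff_st w) e hj]

/-- the constant part along a vertex -/
theorem NA.kill (h : S.Ok) (hc : S.Cen) {q : Finset ι} (hq : Cls S q) {A B : Finset V}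
    {f : (ι → ℝ) → ℝ} (hf : On q f) {K : ℝ} (hn : NA S q A B f K) (w : V) :
    NA S (q \ S.st w) A B (fun z => f (mix (S.st w) 0 z)) K := by
  obtain ⟨I, a, b, c, d⟩ := hn
  refine ⟨_, fm_kill w a, fun v hv => (b v hv).kill _, intV_cut _ c,
    Nle.down h (hq.sdiff_st w) sdiff_subset ?_ fun z hz => d _ ((ln2_kill h hc hq w z).trans hz)⟩
  exact (fm_kill w (⟨hf, by simp⟩ : Fm S q ∅ f)).on.map₂ (fm_kill w a).on (· - ·)

/-- the linear part along a vertex -/
theorem NA.lab (h : S.Ok) (hc : S.Cen) {q : Finset ι} (hq : Cls S q) {A B : Finset V}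
    {f : (ι → ℝ) → ℝ} {K : ℝ} (hn : NA S q A B f K) {w : V} (hw : w ∈ B) :
    NA S q (insert w A) B (lab S w f) (2 * K) := by
  obtain ⟨I, a, b, c, d⟩ := hn
  refine ⟨_, fm_lab a (b w hw), fun v hv => (b v hv).sub ((b v hv).kill _),
    c.sub (intV_cut _ c), fun z hz => ?_⟩
  have h1 := abs_le.1 (d z hz)
  have h2 := abs_le.1 (d _ ((ln2_kill h hc hq w z).trans hz))
  simp only [P057T1.lab] at h1 h2 ⊢
  rw [abs_le]; constructor <;> linarith [h1.1, h1.2, h2.1, h2.2]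

/-- a form that is near an affine integer function is near an integer form -/
theorem NA.to_near (h : S.Ok) (hc : S.Cen) {q : Finset ι} (hq : Cls S q) {A B : Finset V}
    {f : (ι → ℝ) → ℝ} {K : ℝ} (hn : NA S q A B f K) (T : Finset V) (hT : T ⊆ B)
    (hf : ∀ v ∈ T, Lin (S.st v) f) : NA S q (T ∪ A) B f (2 ^ T.card * K) := by
  induction T using Finset.induction_on with
  | empty => simpa using hn
  | insert w T hw ih =>
    have h1 := (ih ((subset_insert _ _).trans hT) fun v hv => hf v (mem_insert_of_mem hv)).lab h hc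
      hq (hT (mem_insert_self _ _))
    have e : P057T1.lab S w f = f := funext fun z => by
      rw [P057T1.lab, (hf w (mem_insert_self _ _)).zero, sub_zero]
    rwa [e, ← insert_union, ← mul_assoc, ← pow_succ', ← card_insert_of_notMem hw] at h1

theorem nf_empty {q : Finset ι} {Φ : (ι → ℝ) → ℝ} (ho : On q Φ) {K : ℝ} {y : ι → ℝ} {n : ℤ}
    (hn : |Φ y - n| ≤ K) : NF S q ∅ Φ K y :=
  ⟨fun _ => n, ⟨On.const _ _, by simp⟩, IntV.const n, fun z hz => by
    rwa [ho z y fun i hi => hz.1 i (by simpa [MS.sts_empty] using hi)]⟩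

theorem sdiff_sts_insert (q : Finset ι) (A : Finset V) (w : V) :
    q \ S.sts (insert w A) = (q \ S.sts A) \ S.st w := by
  ext i; simp only [MS.sts_insert, mem_sdiff, mem_union]; tauto

theorem wt_ind_mono (h : S.Ok) (q : Finset ι) {p r : (ι → ℤ) → Prop} (e : ∀ y, p y → r y) :
    ∑' y, S.wt q y * ind (p y) ≤ ∑' y, S.wt q y * ind (r y) :=
  Summable.tsum_le_tsum (fun y => mul_le_mul_of_nonneg_left (ind_mono (e y)) (MS.wt_nonneg _ _))
    (h.summable_re _ fun _ => abs_ind _) (h.summable_re _ fun _ => abs_ind _)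

theorem wt_ind_and (h : S.Ok) (q : Finset ι) (p r : (ι → ℤ) → Prop) :
    ∑' y, S.wt q y * ind (p y) - ∑' y, S.wt q y * ind (¬ r y) ≤
      ∑' y, S.wt q y * ind (p y ∧ r y) := by
  rw [sub_le_iff_le_add, ← (h.summable_re q fun _ => abs_ind _).tsum_add
    (h.summable_re q fun _ => abs_ind _)]
  refine Summable.tsum_le_tsum (fun y => ?_) (h.summable_re _ fun _ => abs_ind _)
    ((h.summable_re q fun _ => abs_ind _).add (h.summable_re q fun _ => abs_ind _))
  rw [← mul_add]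
  refine mul_le_mul_of_nonneg_left ?_ (MS.wt_nonneg _ _)
  by_cases a : r y
  · rw [ind_neg (not_not.2 a), add_zero]; exact ind_mono fun b => ⟨b, a⟩
  · rw [ind_pos a]; linarith [ind_le (p y), ind_nonneg (p y ∧ r y)]

variable [Fintype V]

/-- release of one frozen vertex for a function that is affine along it -/
theorem dv_aff (h : S.Ok) (hc : S.Cen) {q : Finset ι} (hq : Cls S q) {A : Finset V} {w : V}
    (hw : w ∉ A) {Φ : (ι → ℝ) → ℝ} (hΦ : Fm S q A Φ) (hΦw : Aff (S.st w) Φ)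
    {K β W η : ℝ} (hK : 0 ≤ K) {D M : ℕ} (hD : q.card ≤ D) (hD1 : 1 ≤ D)
    (hA : A.Nonempty ∨ (M : ℝ) ^ 3 * (6 * K) < 1) (hβ : 0 < β)
    (hβ1 : β ≤ 1) (hM : 5 ≤ M * ((β / 2) ^ 4 / 2 ^ 17) ^ 2)
    (hW1 : 64 * (D : ℝ) ^ 2 * (M : ℝ) ^ 2 ≤ W)
    (hW2 : 3 * ((4 * K + 1) * (4 * D + 2 * A.card + 2)) ≤ W)
    (hW3 : ((M : ℝ) ^ 3 * (6 * K) + 1) * (D + 2 * A.card + 2) ≤ W) (hη0 : 0 ≤ η)
    (hη : 2 ^ 29 * 7 ^ A.card * η ≤ β ^ 5) (hs : Smo S q 4 W η) {E : (ι → ℤ) → Prop}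
    (hE : ∀ y, E y → NF S q A Φ K (toR y))
    (hm : β * vl S.G (q \ S.sts A) ≤ ∑' y, S.wt (q \ S.sts A) y * ind (E y)) :
    ∃ n : ℕ, 1 ≤ n ∧ n ≤ M ∧ β / 4 / M * vl S.G (q \ S.sts (insert w A)) ≤
      ∑' y, S.wt (q \ S.sts (insert w A)) y * ind (Fib S (q \ S.sts A) w E (β / 2) y ∧
        NF S q (insert w A) (fun z => n * lab S w Φ z)
          (2 * M * K + 32 * D * (M : ℝ) ^ 3 * K) (toR y) ∧
        NF S (q \ S.st w) A (fun z => n * Φ (mix (S.st w) 0 z))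
          (M * K + 32 * D * (M : ℝ) ^ 3 * K * (D + 3 / (β / 2))) (toR y)) := by
  have hD' : (1 : ℝ) ≤ D := by exact_mod_cast hD1
  have hA0 : (0 : ℝ) ≤ A.card := Nat.cast_nonneg _
  have hW0 : 1 ≤ W := by nlinarith
  have hM1 : 1 ≤ M := by
    rcases Nat.eq_zero_or_pos M with rfl | h0
    · simp at hM; linarith
    · exact h0
  have hr := cls_sdiff_sts hq A
  have h1 := dense_fib h hc hr w hβ.le hβ1 (η := η) (by
    have := mass_nar_mono h hc one_pos hW0 q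
    rw [nar_one] at this
    exact (Cls.mass_mono h hc hq hr sdiff_subset).trans
      (this.trans (hs.mass h hc hq (by norm_num) (by linarith)))) hm
  have h2 := gen_bad h hc hq hw hK hD hD1 hM1 hA (β := β / 2 / 2) (by positivity) (by linarith)
    hW2 hW3 hs
  have h3 := wt_ind_and h ((q \ S.sts A) \ S.st w) (Fib S (q \ S.sts A) w E (β / 2))
    (Gen S q A w K D M (β / 2 / 2) W)
  rw [sdiff_sts_insert, div_mul_eq_mul_div]
  refine pigeon (wt_wt h _) hM1 (le_trans ?_ (h3.trans (wt_ind_mono h _ fun y hy => ?_)))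
  · have pB := vl_pos h.pd ((q \ S.sts A) \ S.st w)
    have p7 : (1 : ℝ) ≤ 7 ^ A.card := one_le_pow₀ (by norm_num)
    have a1 : 2 ^ 18 * 7 ^ A.card * η / (β / 2 / 2) ^ 4 ≤ β / 8 := by
      rw [div_le_iff₀ (by positivity)]; nlinarith
    have a2 : β ^ 5 ≤ β := pow_le_of_le_one hβ.le hβ1 (by norm_num)
    have a3 : 2 * η ≤ β / 8 := by nlinarith [le_mul_of_one_le_left hη0 p7]
    nlinarith [mul_le_mul_of_nonneg_right a1 pB.le, mul_le_mul_of_nonneg_right a3 pB.le]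
  · obtain ⟨n, a1, a2, a3, a4⟩ := fib_gen h hc hq hw hΦ hΦw hK hD hD1 (half_pos hβ) hM hW1 hy.2
      hE hy.1
    exact ⟨n, a1, a2, hy.1, a3, a4⟩

/-- growth of the exponents -/
def ey : ℕ → ℕ → ℕ
  | 0, _ => 0
  | n + 1, e => 2 * ey n (26 * e + 92) + 25 * e + 93

theorem aff_num {P D M K β : ℝ} {e : ℕ} (hP : 4 ≤ P) (hD1 : 1 ≤ D) (hD : D ≤ P) (hM0 : 0 ≤ M)
    (hK0 : 0 ≤ K) (hβ0 : 0 < β) (hβ : 1 ≤ β * P ^ e)
    (a6 : 2 * M * P ^ (e + 1) + 32 * D * M ^ 3 * P ^ (e + 1) ≤ P ^ (25 * (e + 1) + 65)) :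
    2 * M * K + 32 * D * M ^ 3 * K ≤ K * P ^ (25 * e + 92) ∧
      M * K + 32 * D * M ^ 3 * K * (D + 3 / (β / 2)) ≤ K * P ^ (25 * e + 92) := by
  have hP1 : 1 ≤ P := by linarith
  have hP0 : 0 < P := by linarith
  have c1 : 2 * M + 32 * D * M ^ 3 ≤ P ^ (24 * e + 89) :=
    le_of_mul_le_mul_right (le_of_eq_of_le (by ring) (a6.trans_eq (by ring))) (pow_pos hP0 (e + 1))
  have c2 : D + 3 / (β / 2) ≤ P ^ (e + 3) := by
    have d1 : 3 / (β / 2) ≤ 6 * P ^ e := by rw [div_le_iff₀ (half_pos hβ0)]; linarith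
    have d2 : 64 ≤ P ^ 3 := le_trans (by norm_num) (pow_le_pow_left₀ (by norm_num) hP 3)
    have d3 : 16 * P ≤ P ^ 3 := by nlinarith [mul_nonneg hP0.le (show 0 ≤ P * P - 16 by nlinarith)]
    have d4 := one_le_pow₀ hP1 (n := e)
    rw [pow_add]; nlinarith
  have c3 : 1 ≤ D + 3 / (β / 2) := le_add_of_le_of_nonneg hD1 (by positivity)
  constructor
  · rw [← add_mul, mul_comm]
    exact mul_le_mul_of_nonneg_left (c1.trans (pow_le_pow_right₀ hP1 (by omega))) hK0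
  · calc _ ≤ K * ((2 * M + 32 * D * M ^ 3) * (D + 3 / (β / 2))) := by
          nlinarith [mul_nonneg (mul_nonneg hK0 hM0) (sub_nonneg.2 c3), mul_nonneg hK0 hM0]
      _ ≤ K * (P ^ (24 * e + 89) * P ^ (e + 3)) := by gcongr
      _ = _ := by ring

theorem eta_num {P β η : ℝ} {e a n : ℕ} (hP : 4 ≤ P) (hη0 : 0 ≤ η) (hβ : 1 ≤ β * P ^ e)
    (hn : 15 + 5 * e + 2 * a ≤ n) (hη : η * P ^ n ≤ 1) : 2 ^ 29 * 7 ^ a * η ≤ β ^ 5 := by
  have hP0 : 0 < P := by linarith
  have c1 : (2 : ℝ) ^ 29 * 7 ^ a * P ^ (5 * e) ≤ P ^ n :=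
    calc (2 : ℝ) ^ 29 * 7 ^ a * P ^ (5 * e) ≤ P ^ 15 * (P ^ 2) ^ a * P ^ (5 * e) := by
          gcongr
          · exact le_trans (by norm_num) (pow_le_pow_left₀ (by norm_num) hP 15)
          · nlinarith
      _ = P ^ (15 + 5 * e + 2 * a) := by ring
      _ ≤ _ := pow_le_pow_right₀ (by linarith) hn
  have c2 : 1 ≤ β ^ 5 * P ^ (5 * e) := by
    rw [mul_comm 5 e, pow_mul, ← mul_pow]; exact one_le_pow₀ hβ
  refine le_of_mul_le_mul_right ?_ (pow_pos hP0 (5 * e))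
  nlinarith [mul_le_mul_of_nonneg_left c1 hη0]

/-- dense vanishing: all frozen vertices are released -/
theorem dv_all (h : S.Ok) (hc : S.Cen) {P W η : ℝ} (hP : 4 ≤ P) (hη0 : 0 ≤ η) :
    ∀ (n e : ℕ) (q : Finset ι) (F A : Finset V) (Φ : (ι → ℝ) → ℝ) (K β : ℝ), Cls S q →
      (∀ i ∈ q, S.fc i ⊆ F) → (q.card : ℝ) ≤ P → Smo S q 4 W η → A ⊆ F → (F \ A).card = n →
      Fm S q A Φ → (∀ v ∈ F, Aff (S.st v) Φ) → 0 ≤ K → K ≤ P ^ e → β ≤ 1 → 1 ≤ β * P ^ e →
      (A.Nonempty ∨ K * P ^ ey n e < 1) → P ^ (ey n e + F.card) ≤ W →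
      η * P ^ (ey n e + 2 * F.card) ≤ 1 →
      β * vl S.G (q \ S.sts A) ≤ ∑' y, S.wt (q \ S.sts A) y * ind (NF S q A Φ K (toR y)) →
      ∃ Q : ℕ, 0 < Q ∧ (Q : ℝ) ≤ P ^ ey n e ∧ NA S q A F (fun z => Q * Φ z) (K * P ^ ey n e) := by
  have hP1 : 1 ≤ P := by linarith
  have hP0 : 0 < P := by linarith
  have mono : ∀ {n m}, n ≤ m → P ^ n ≤ P ^ m := fun e => pow_le_pow_right₀ hP1 e
  intro n
  induction n with
  | zero =>
    intro e q F A Φ K β _ hF _ _ hA hn _ _ _ _ _ hβ _ _ _ hm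
    obtain rfl : A = F := Subset.antisymm hA (sdiff_eq_empty_iff_subset.1 (card_eq_zero.1 hn))
    have hβ0 : 0 < β := (mul_pos_iff_of_pos_right (pow_pos hP0 e)).1 (by linarith)
    obtain ⟨y, hy⟩ : ∃ y, NF S q A Φ K (toR y) := by
      by_contra h0
      simp only [ind_neg fun a => h0 ⟨_, a⟩, mul_zero, tsum_zero] at hm
      exact absurd hm (not_le.2 (mul_pos hβ0 (vl_pos h.pd _)))
    have e1 : q ∩ S.sts A = q := inter_eq_left.2 fun i hi => by
      obtain ⟨v, hv⟩ := hc.ne i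
      exact MS.mem_sts.2 ⟨v, hF i hi hv, hv⟩
    obtain ⟨I, h1, h2, h3⟩ := hy
    rw [e1] at h1 h3
    refine ⟨1, one_pos, by simp [ey], I, h1, fun v hv => (h1.lin v hv).aff, h2, fun z hz => ?_⟩
    simpa [ey] using h3 z ⟨by simp, hz⟩
  | succ n ih =>
    intro e q F A Φ K β hq hF hD hs hA hn hΦ hΦa hK0 hK hβ1 hβ hA0 hW hη hm
    have hβ0 : 0 < β := (mul_pos_iff_of_pos_right (pow_pos hP0 e)).1 (by linarith)
    obtain ⟨w, hw⟩ : (F \ A).Nonempty := card_pos.1 (by omega)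
    obtain ⟨hwF, hwA⟩ := mem_sdiff.1 hw
    have hD' : ((max q.card 1 : ℕ) : ℝ) ≤ P := by
      rw [Nat.cast_max]; exact max_le hD (by simpa using hP1)
    have pe := pow_pos hP0 e
    obtain ⟨a1, a2, a3, a4, a5, a6, a7⟩ := step_num hP (e + 1) F.card hD' (card_le_card hA) rfl
      (β := β / 2) (by rw [pow_succ]; nlinarith) (half_pos hβ0)
    set M := ⌈P ^ (8 * (e + 1) + 19)⌉₊ with hM
    set D := max q.card 1 with hDd
    have hM0 : (0 : ℝ) ≤ M := Nat.cast_nonneg _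
    have hD1 : (1 : ℝ) ≤ D := by exact_mod_cast le_max_right q.card 1
    have hA1 : (0 : ℝ) ≤ A.card := Nat.cast_nonneg _
    have hK1 : K ≤ P ^ (e + 1) := hK.trans (mono (by omega))
    have b1 : P ^ (25 * (e + 1) + 65 + F.card) ≤ W :=
      (mono (by simp only [ey]; omega)).trans hW
    have hM3 : (M : ℝ) ^ 3 * 6 ≤ P ^ (24 * e + 86) :=
      calc (M : ℝ) ^ 3 * 6 ≤ (P ^ (8 * (e + 1) + 20)) ^ 3 * P ^ 2 := by gcongr; nlinarith
        _ = _ := by ring
    obtain ⟨m, hm1, hm2, hm3⟩ := dv_aff h hc hq hwA hΦ (hΦa w hwF) hK0 (le_max_left _ _)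
      (le_max_right _ _) (hA0.imp_right fun a => lt_of_le_of_lt (by
        rw [← mul_assoc, mul_comm]
        exact mul_le_mul_of_nonneg_left (hM3.trans (mono (by simp only [ey]; omega))) hK0) a)
      hβ0 hβ1 a1 (a3.trans b1) (le_trans (by gcongr) (a4.trans b1))
      (le_trans (by gcongr) (a5.trans b1)) hη0 (eta_num hP hη0 hβ (by
        have := card_le_card hA
        simp only [ey]; omega) hη) hs (fun _ a => a) hm
    have hM1 : (1 : ℝ) ≤ M := by exact_mod_cast hm1.trans hm2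
    obtain ⟨c4, c5⟩ := aff_num hP hD1 hD' hM0 hK0 hβ0 hβ a6
    have c6 : K * P ^ (25 * e + 92) ≤ P ^ (26 * e + 92) :=
      (mul_le_mul_of_nonneg_right hK (by positivity)).trans_eq (by ring)
    have c7 : β / 4 / M ≤ 1 := by rw [div_le_one (by linarith)]; linarith
    have c8 : 1 ≤ β / 4 / M * P ^ (26 * e + 92) :=
      a7.trans (mul_le_mul (by gcongr; linarith) (mono (by omega)) (by positivity) (by positivity))
    have c9 : ey n (26 * e + 92) ≤ ey (n + 1) e := by simp only [ey]; omega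
    have hW0 : 0 < W := (pow_pos hP0 _).trans_le hW
    obtain ⟨Q, hQ0, hQ1, I, i1, i2, i3, i4⟩ := ih (26 * e + 92) q F (insert w A)
      (fun z => m * lab S w Φ z) _ _ hq hF hD hs (insert_subset hwF hA) (by
        rw [sdiff_insert, card_erase_of_mem hw, hn]; rfl) ((fm_lab hΦ (hΦa w hwF)).smul m)
      (fun v hv => aff_smul ((hΦa v hv).sub ((hΦa v hv).kill _)) _) (by positivity) c6 c7 c8
      (Or.inl (insert_nonempty _ _)) ((mono (by omega)).trans hW)
      ((mul_le_mul_of_nonneg_left (mono (by omega)) hη0).trans hη)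
      (hm3.trans (wt_ind_mono h _ fun y a => a.2.1.mono c4))
    have f1 : (F.erase w).card ≤ F.card := card_erase_le
    obtain ⟨R, hR0, hR1, J, j1, j2, j3, j4⟩ := ih (26 * e + 92) (q \ S.st w) (F.erase w) A
      (fun z => m * Φ (mix (S.st w) 0 z)) _ _ (hq.sdiff_st w)
      (fun i hi => subset_erase.2 ⟨hF i (mem_sdiff.1 hi).1, fun a =>
        (mem_sdiff.1 hi).2 (S.mem_st.2 a)⟩)
      (le_trans (by exact_mod_cast card_le_card sdiff_subset) hD)
      (hs.mono h hc hq (hq.sdiff_st w) sdiff_subset le_rfl hW0 le_rfl le_rfl)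
      (subset_erase.2 ⟨hA, hwA⟩) (by
        rw [erase_sdiff_comm, card_erase_of_mem hw, hn]; rfl) ((fm_kill w hΦ).smul m)
      (fun v hv => aff_smul ((hΦa v (mem_of_mem_erase hv)).kill _) _) (by positivity) c6 c7 c8
      (hA0.imp_right fun a => lt_of_le_of_lt (by
        rw [mul_assoc, ← pow_add]
        exact mul_le_mul_of_nonneg_left (mono (by simp only [ey]; omega)) hK0) a)
      ((mono (by omega)).trans hW) ((mul_le_mul_of_nonneg_left (mono (by omega)) hη0).trans hη)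
      (by
        rw [show (q \ S.st w) \ S.sts A = q \ S.sts (insert w A) by
          rw [sdiff_sts_insert, sdiff_sdiff_comm]]
        exact hm3.trans (wt_ind_mono h _ fun y a => a.2.2.mono c5))
    have hm4 : (m : ℝ) ≤ P ^ (8 * (e + 1) + 20) := le_trans (by exact_mod_cast hm2) a2
    refine ⟨Q * R * m, Nat.mul_pos (Nat.mul_pos hQ0 hR0) hm1, ?_, fun z => R * I z + Q * J z,
      ((i1.mono le_rfl (subset_insert _ _)).comb (j1.mono sdiff_subset le_rfl) _ _),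
      fun v hv => aff_comb (i2 v hv) ?_ _ _,
      ((IntV.const R).mul i3).add ((IntV.const Q).mul j3), fun z hz => ?_⟩
    · push_cast
      calc (Q : ℝ) * R * m ≤ P ^ ey n (26 * e + 92) * P ^ ey n (26 * e + 92) *
            P ^ (8 * (e + 1) + 20) := by gcongr
        _ ≤ _ := by rw [← pow_add, ← pow_add]; exact mono (by simp only [ey]; omega)
    · by_cases e1 : v = w
      · exact aff_of_indep (j1.on.indep fun i hi => e1 ▸ (mem_sdiff.1 hi).2)
      · exact j2 v (mem_erase.2 ⟨e1, hv⟩)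
    · have k1 := i4 z hz
      have k2 := j4.up h (hq.sdiff_st w) sdiff_subset z hz
      beta_reduce at k1 k2 ⊢
      rw [show ((Q * R * m : ℕ) : ℝ) * Φ z - (R * I z + Q * J z) =
        R * (Q * (m * lab S w Φ z) - I z) + Q * (R * (m * Φ (mix (S.st w) 0 z)) - J z) by
          simp only [lab]; push_cast; ring]
      refine (abs_add_le _ _).trans ?_
      rw [abs_mul, abs_mul, Nat.abs_cast, Nat.abs_cast]
      calc _ ≤ P ^ ey n (26 * e + 92) * (K * P ^ (25 * e + 92) * P ^ ey n (26 * e + 92)) +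
            P ^ ey n (26 * e + 92) * (K * P ^ (25 * e + 92) * P ^ ey n (26 * e + 92)) := by gcongr
        _ = K * (P ^ (2 * ey n (26 * e + 92) + 25 * e + 92) * 2) := by ring
        _ ≤ _ := by
            refine mul_le_mul_of_nonneg_left ?_ hK0
            rw [ey, pow_succ _ (2 * ey n (26 * e + 92) + 25 * e + 92)]
            gcongr; linarith

end

/-- dense vanishing, packaged: `Φ` is linear along `A`, affine along `F`, and its slices over a
dense set of frozen points are nearly integral -/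
theorem dv_near : ∃ c : ℕ → ℕ, ∀ {V ι : Type*} [DecidableEq ι] [Fintype ι] [DecidableEq V]
    [Fintype V] {S : MS V ι}, S.Ok → S.Cen → ∀ {q : Finset ι} {F A : Finset V}, Cls S q →
    (∀ i ∈ q, S.fc i ⊆ F) → A ⊆ F → ∀ {Φ : (ι → ℝ) → ℝ}, Fm S q A Φ →
    (∀ v ∈ F, Aff (S.st v) Φ) → ∀ {P K β W η : ℝ} {N : ℕ}, 4 ≤ P → (q.card : ℝ) ≤ P → 0 ≤ K →
    K ≤ P → 1 ≤ β * P → (A.Nonempty ∨ K * P ^ c F.card < 1) → P ^ c F.card ≤ W →
    η * P ^ c F.card ≤ 1 → 4 ≤ N → Smo S q N W η →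
    β * vl S.G (q \ S.sts A) ≤ ∑' y, S.wt (q \ S.sts A) y * ind (NF S q A Φ K (toR y)) →
    ∃ Q : ℕ, 0 < Q ∧ (Q : ℝ) ≤ P ^ c F.card ∧
      NA S q A F (fun z => Q * Φ z) (K * P ^ c F.card) := by
  refine ⟨fun f => (range (f + 1)).sup (fun n => ey n 1) + 2 * f + 1, ?_⟩
  intro V ι _ _ _ _ S h hc q F A hq hF hA Φ hΦ hΦa P K β W η N hP hD hK0 hK hβ hA0 hW hη hN hs hm
  have hP1 : 1 ≤ P := by linarith
  have mono : ∀ {n m}, n ≤ m → P ^ n ≤ P ^ m := fun e => pow_le_pow_right₀ hP1 e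
  beta_reduce at hA0 hW hη ⊢
  have h1 : ey (F \ A).card 1 ≤ (range (F.card + 1)).sup (fun n => ey n 1) :=
    le_sup (f := fun n => ey n 1) (mem_range.2 (Nat.lt_succ_of_le (card_le_card sdiff_subset)))
  have hW0 : 0 < W := (pow_pos (by linarith) _).trans_le hW
  obtain ⟨Q, a1, a2, a3⟩ := dv_all h hc hP (le_max_right η 0) _ 1 q F A Φ K (min β 1) hq hF hD
    (hs.mono h hc hq hq le_rfl hN hW0 le_rfl (le_max_left _ _)) hA rfl hΦ hΦa hK0
    (by rwa [pow_one]) (min_le_right _ _) (by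
      rw [pow_one, min_mul_of_nonneg _ _ (by linarith)]; exact le_min hβ (by linarith))
    (hA0.imp_right fun a => lt_of_le_of_lt (mul_le_mul_of_nonneg_left (mono (by omega)) hK0) a)
    ((mono (by omega)).trans hW) (by
      rw [max_mul_of_nonneg _ _ (by positivity), zero_mul]
      refine max_le ?_ zero_le_one
      rcases le_total 0 η with e | e
      · exact (mul_le_mul_of_nonneg_left (mono (by omega)) e).trans hη
      · exact (mul_nonpos_of_nonpos_of_nonneg e (by positivity)).trans zero_le_one)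
    ((mul_le_mul_of_nonneg_right (min_le_left _ _) (vl_pos h.pd _).le).trans hm)
  exact ⟨Q, a1, a2.trans (mono (by omega)),
    a3.mono (mul_le_mul_of_nonneg_left (mono (by omega)) hK0)⟩

/-- a form that is very close to an integer on a dense set of points -/
theorem dv_scalar : ∃ c : ℕ → ℕ, ∀ {V ι : Type*} [DecidableEq ι] [Fintype ι] [DecidableEq V]
    [Fintype V] {S : MS V ι}, S.Ok → S.Cen → ∀ {q : Finset ι} {F : Finset V}, Cls S q →
    (∀ i ∈ q, S.fc i ⊆ F) → ∀ {Φ : (ι → ℝ) → ℝ}, Fm S q F Φ →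
    ∀ {P K β W η : ℝ} {N : ℕ}, 4 ≤ P → (q.card : ℝ) ≤ P → 0 ≤ K → 1 ≤ β * P →
    K * P ^ c F.card < 1 → P ^ c F.card ≤ W → η * P ^ c F.card ≤ 1 → 4 ≤ N → Smo S q N W η →
    β * vl S.G q ≤ ∑' y, S.wt q y * ind (∃ n : ℤ, |Φ (toR y) - n| ≤ K) →
    ∃ Q : ℕ, 0 < Q ∧ (Q : ℝ) ≤ P ^ c F.card ∧
      Near S q F (fun z => Q * Φ z) (K * P ^ c F.card) := by
  obtain ⟨c, hc0⟩ := dv_near
  refine ⟨fun f => c f + f, ?_⟩
  intro V ι _ _ _ _ S h hc q F hq hF Φ hΦ P K β W η N hP hD hK0 hβ hK hW hη hN hs hm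
  have hP1 : 1 ≤ P := by linarith
  have m1 : P ^ c F.card ≤ P ^ (c F.card + F.card) := pow_le_pow_right₀ hP1 (by omega)
  have m2 := le_mul_of_one_le_right hK0 (one_le_pow₀ hP1 (n := c F.card + F.card))
  obtain ⟨Q, a1, a2, a3⟩ := hc0 h hc hq hF (empty_subset F) (hΦ.mono le_rfl (empty_subset F))
    (fun v hv => (hΦ.lin v hv).aff) hP hD hK0 (by linarith) hβ
    (Or.inr (lt_of_le_of_lt (mul_le_mul_of_nonneg_left m1 hK0) hK)) (m1.trans hW) (by
      rcases le_total 0 η with e | e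
      · exact (mul_le_mul_of_nonneg_left m1 e).trans hη
      · exact (mul_nonpos_of_nonpos_of_nonneg e (by positivity)).trans zero_le_one) hN hs (by
      rw [MS.sts_empty, sdiff_empty]
      exact hm.trans (wt_ind_mono h _ fun y ⟨n, hn⟩ => nf_empty hΦ.on hn))
  have a4 := (a3.to_near h hc hq F le_rfl (hΦ.smul Q).lin).near
  rw [union_empty] at a4
  refine ⟨Q, a1, a2.trans m1, a4.mono ?_⟩
  rw [pow_add, mul_comm, mul_assoc]
  gcongr; linarith

end Vale.Agent.P057T1
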