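import Vale.Agent.P057IV.Plan

/-!
Dense vanishing for a family of functions that are affine in one class.
-/

set_option linter.unusedSectionVars false

open Matrix Finset Real
open Vale.Agent.P267.H775 Vale.Agent.P057G Vale.Agent.P057MA Vale.Agent.P057HU
open Vale.Agent.P057IV

namespace Vale.Agent.P057T1

noncomputable section

variable {V ι : Type} [DecidableEq ι] [Fintype ι] [DecidableEq V] {S : MS V ι}

theorem NF.congr {q : Finset ι} {A : Finset V} {Φ : (ι → ℝ) → ℝ} {K : ℝ} {y y' : ι → ℝ}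
    (h : NF S q A Φ K y) (e : ∀ j ∈ q \ S.sts A, y j = y' j) : NF S q A Φ K y' := by
  obtain ⟨η, a, b, c⟩ := h
  refine ⟨η, a, b, fun z hz => c z ⟨fun j hj => (hz.1 j hj).trans (e j ?_).symm, hz.2⟩⟩
  simp only [mem_sdiff, mem_inter] at hj ⊢; tauto

theorem NF.nsmul {q : Finset ι} {A : Finset V} {Φ : (ι → ℝ) → ℝ} {K : ℝ} {y : ι → ℝ}
    (h : NF S q A Φ K y) (n : ℕ) : NF S q A (fun z => n * Φ z) (n * K) y := by
  obtain ⟨η, a, b, c⟩ := h
  refine ⟨fun z => n * η z, a.smul n, (IntV.const n).mul b, fun z hz => ?_⟩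
  rw [← mul_sub, abs_mul, Nat.abs_cast]
  exact mul_le_mul_of_nonneg_left (c z hz) (Nat.cast_nonneg n)

theorem fce_sdiff_sts {A B : Finset V} (h : Disjoint A B) :
    fce S (A ∪ B) \ S.sts A = fce S B := by
  ext j
  simp only [mem_sdiff, mem_fce, MS.mem_sts, not_exists, not_and]
  exact ⟨fun a v hv => (mem_union.1 (a.1 hv)).resolve_left fun b => a.2 v b hv,
    fun a => ⟨a.trans subset_union_right, fun v b c => disjoint_left.1 h b (a c)⟩⟩

theorem fce_sdiff_st (F : Finset V) (i : V) : fce S F \ S.st i = fce S (F.erase i) := by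
  ext j
  simp only [mem_sdiff, mem_fce, MS.mem_st, subset_erase]

/-- back from the frozen points to the points of the dense fibres -/
theorem fib_back (h : S.Ok) (hc : S.Cen) (r : Finset ι) (w : V) {E g : (ι → ℤ) → Prop} {β : ℝ}
    (hg : ∀ y x, g y → g (put (r ∩ S.st w) x y)) :
    β * vl S.G (r ∩ S.st w) * ∑' y, S.wt (r \ S.st w) y * ind (Fib S r w E β y ∧ g y) ≤
      ∑' z, S.wt r z * ind (E z ∧ g z) := by
  have s0 := h.hasSum_fibre r w (F := fun z => ind (E z ∧ g z))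
    (h.summable_re _ fun _ => abs_ind _)
  simp only [hc.fcn] at s0
  refine hasSum_le (fun y => ?_)
    ((h.summable_re (r \ S.st w) fun _ => abs_ind _).hasSum.mul_left _) s0
  rw [mul_left_comm]
  refine mul_le_mul_of_nonneg_left ?_ (MS.wt_nonneg _ _)
  by_cases a : Fib S r w E β y ∧ g y
  · rw [ind_pos a, mul_one, ← h.vol_fg r w (toR y)]
    exact a.1.trans_eq (tsum_congr fun x => by simp only [hg y x a.2, and_true])
  · rw [ind_neg a, mul_zero]
    exact tsum_nonneg fun x => mul_nonneg (gs_pos _ _).le (ind_nonneg _)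

theorem wt_ind_all (h : S.Ok) (q : Finset ι) {κ : Type} (s : Finset κ)
    (p : κ → (ι → ℤ) → Prop) : ∑' y, S.wt q y * ind (¬ ∀ r ∈ s, p r y) ≤
      ∑ r ∈ s, ∑' y, S.wt q y * ind (¬ p r y) := by
  rw [← Summable.tsum_finsetSum fun r _ => h.summable_re q fun y => abs_ind _]
  refine Summable.tsum_le_tsum (fun y => ?_) (h.summable_re q fun y => abs_ind _)
    (summable_sum fun r _ => h.summable_re q fun y => abs_ind _)
  rw [← mul_sum]
  refine mul_le_mul_of_nonneg_left ?_ (MS.wt_nonneg _ _)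
  by_cases e : ∀ r ∈ s, p r y
  · rw [ind_neg (not_not.2 e)]; exact sum_nonneg fun _ _ => ind_nonneg _
  · obtain ⟨r, hr⟩ := not_forall.1 e
    obtain ⟨h1, h2⟩ := Classical.not_imp.1 hr
    exact (ind_le _).trans ((ind_pos h2).ge.trans
      (single_le_sum (f := fun r => ind (¬ p r y)) (fun _ _ => ind_nonneg _) h1))

theorem exp_pow_le {Y : ℝ} (hY : 2 ≤ Y) (a : ℕ) {t : ℝ} (ht : t ≤ Y) :
    exp (2 * Y) ^ a * exp (t * (2 * a * Y)) ≤ exp (Y ^ (a + 4)) := by
  rw [← exp_nat_mul, ← exp_add]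
  refine exp_le_exp.2 ?_
  have h1 : (a : ℝ) ≤ Y ^ a := by
    have : (a : ℝ) ≤ 2 ^ a := by exact_mod_cast Nat.lt_two_pow_self.le
    exact this.trans (pow_le_pow_left₀ (by norm_num) hY a)
  have h2 : (0 : ℝ) ≤ a := Nat.cast_nonneg a
  have h3 : t * (2 * a * Y) ≤ Y * (2 * a * Y) := by gcongr
  have h4 : a * (2 * Y) + Y * (2 * a * Y) ≤ a * Y ^ 4 := by
    have : 2 * Y + 2 * Y ^ 2 ≤ Y ^ 4 := by nlinarith [mul_le_mul hY hY (by norm_num) (by linarith)]
    nlinarith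
  rw [pow_add]
  nlinarith [mul_le_mul_of_nonneg_right h1 (show 0 ≤ Y ^ 4 by positivity)]

theorem dv_fam [Fintype V] (h : S.Ok) (hc : S.Cen) {B : Finset V} {i : V} {κ : Type} [Fintype κ]
    {ty : κ → Finset V} {f : κ → (ι → ℝ) → ℝ} {E : (ι → ℝ) → Prop} (hi : i ∈ B)
    (hty : ∀ r, (ty r).Nonempty ∧ Disjoint (ty r) B)
    (hf : ∀ r, Ty S (ty r) B (f r) ∧ Aff (S.st i) (f r)) {K K' β W η : ℝ} (hK : 0 ≤ K) {D M : ℕ}
    (hD : Fintype.card ι ≤ D) (hD1 : 1 ≤ D) (hβ : 0 < β) (hβ1 : β ≤ 1)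
    (hM : 5 ≤ M * ((β / 2) ^ 4 / 2 ^ 17) ^ 2) (hW1 : 64 * (D : ℝ) ^ 2 * (M : ℝ) ^ 2 ≤ W)
    (hW2 : 3 * ((4 * K + 1) * (4 * D + 2 * Fintype.card V + 2)) ≤ W)
    (hW3 : ((M : ℝ) ^ 3 * (6 * K) + 1) * (D + 2 * Fintype.card V + 2) ≤ W) (hη0 : 0 ≤ η)
    (hη : 2 ^ 29 * 7 ^ Fintype.card V * (η * (Fintype.card κ + 1)) ≤ β ^ 5)
    (hs : Smo S univ 4 W η) (c4 : 2 * M * K + 32 * D * (M : ℝ) ^ 3 * K ≤ K')
    (c5 : M * K + 32 * D * (M : ℝ) ^ 3 * K * (D + 3 / (β / 2)) ≤ K')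
    (hN : ∀ z, E (toR z) → ∀ r, Nr S (ty r) B (f r) K (toR z)) (hd : β ≤ den S B E) :
    ∃ q : ℕ, 0 < q ∧ q ≤ M ^ Fintype.card κ ∧
      β / 2 * (β / 4) / (M ^ Fintype.card κ : ℕ) ≤ den S B fun z => E z ∧ ∀ r,
      Nr S (insert i (ty r)) (B.erase i) (fun w => q * lab S i (f r) w)
        ((M ^ Fintype.card κ : ℕ) * K') z ∧
      Nr S (ty r) (B.erase i) (fun w => q * f r (mix (S.st i) 0 w))
        ((M ^ Fintype.card κ : ℕ) * K') z := by
  have hD' : (1 : ℝ) ≤ D := by exact_mod_cast hD1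
  have hV0 : (0 : ℝ) ≤ Fintype.card V := Nat.cast_nonneg _
  have hk0 : (0 : ℝ) ≤ Fintype.card κ := Nat.cast_nonneg _
  have hW0 : 1 ≤ W := by nlinarith
  have hM1 : 1 ≤ M := by
    rcases Nat.eq_zero_or_pos M with rfl | h0
    · simp at hM; linarith
    · exact h0
  have hK0 : 0 ≤ K' := le_trans (by positivity) c4
  have hDq : ∀ q : Finset ι, q.card ≤ D := fun q => (card_le_univ q).trans hD
  have hsm : ∀ F, Smo S (fce S F) 4 W η := fun F =>
    hs.mono h hc (cls_univ S) (cls_fce S F) (subset_univ _) le_rfl (by linarith) le_rfl le_rfl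
  have pB := vl_pos h.pd (fce S B \ S.st i)
  have pP := vl_pos h.pd (fce S B ∩ S.st i)
  have hi' : ∀ r, i ∉ ty r := fun r e => disjoint_left.1 (hty r).2 e hi
  have h1 := dense_fib h hc (cls_fce S B) i hβ.le hβ1 (η := η) (E := fun z => E (toR z)) (by
      have := mass_nar_mono h hc one_pos hW0 (fce S B)
      rw [nar_one] at this
      exact this.trans ((hsm B).mass h hc (cls_fce S B) (by norm_num) (by linarith)))
    ((le_div_iff₀ (vl_pos h.pd _)).1 hd)
  have h2 := (wt_ind_all h (fce S B \ S.st i) univ fun r => Gen S (fce S (ty r ∪ B)) (ty r) i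
      K D M (β / 2 / 2) W).trans (sum_le_card_nsmul _ _
      (2 ^ 18 * 7 ^ Fintype.card V * η / (β / 2 / 2) ^ 4 * vl S.G (fce S B \ S.st i)) fun r _ => by
    have c0 : ((ty r).card : ℝ) ≤ Fintype.card V := by exact_mod_cast card_le_univ _
    have g := gen_bad h hc (cls_fce S (ty r ∪ B)) (hi' r) hK (hDq _) hD1 hM1 (Or.inl (hty r).1)
      (β := β / 2 / 2) (by positivity) (by linarith) (le_trans (by gcongr) hW2)
      (le_trans (by gcongr) hW3) (hsm _)
    rw [fce_sdiff_sts (hty r).2] at g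
    refine g.trans ?_
    gcongr
    · norm_num
    · exact card_le_univ _)
  have h3 := wt_ind_and h (fce S B \ S.st i) (Fib S (fce S B) i (fun z => E (toR z)) (β / 2))
    fun y => ∀ r ∈ univ, Gen S (fce S (ty r ∪ B)) (ty r) i K D M (β / 2 / 2) W y
  obtain ⟨q, hq1, hq2, hq3⟩ := pigeon (wt_wt h (fce S B \ S.st i)) (M := M ^ Fintype.card κ)
    (Nat.one_le_pow _ _ hM1) (c := β / 4 * vl S.G (fce S B \ S.st i))
    (p := fun q y => Fib S (fce S B) i (fun z => E (toR z)) (β / 2) y ∧ ∀ r,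
      Nr S (insert i (ty r)) (B.erase i) (fun w => q * lab S i (f r) w)
        ((M ^ Fintype.card κ : ℕ) * K') (toR y) ∧
      Nr S (ty r) (B.erase i) (fun w => q * f r (mix (S.st i) 0 w))
        ((M ^ Fintype.card κ : ℕ) * K') (toR y))
    (le_trans (by
      rw [card_univ, nsmul_eq_mul, ← mul_assoc] at h2
      have p7 : (1 : ℝ) ≤ 7 ^ Fintype.card V := one_le_pow₀ (by norm_num)
      have p8 := mul_nonneg (zero_le_one.trans p7) hη0
      have e1 : Fintype.card κ * (2 ^ 18 * 7 ^ Fintype.card V * η / (β / 2 / 2) ^ 4) ≤ β / 8 := by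
        rw [mul_div_assoc', div_le_iff₀ (by positivity)]; nlinarith
      have e2 : 2 * η ≤ β / 8 := by
        nlinarith [pow_le_of_le_one hβ.le hβ1 (show 5 ≠ 0 by norm_num), mul_nonneg p8 hk0,
          le_mul_of_one_le_left hη0 p7]
      nlinarith [mul_le_mul_of_nonneg_right e1 pB.le, mul_le_mul_of_nonneg_right e2 pB.le])
      (h3.trans (wt_ind_mono h _ fun y hy => by
        have k := fun r => fib_gen h hc (cls_fce S (ty r ∪ B)) (hi' r) (hf r).1 (hf r).2
          hK (hDq _) hD1 (half_pos hβ) hM hW1 (hy.2 r (mem_univ r)) (E := fun z => E (toR z))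
          (fun x hx => hN x hx r) (by rw [fce_sdiff_sts (hty r).2]; exact hy.1)
        choose n n1 n2 n3 n4 using k
        classical
        refine ⟨∏ r, n r, one_le_prod' fun r _ => n1 r, (prod_le_pow_card _ _ _ fun r _ => n2 r),
          hy.1, fun r => ?_⟩
        have e1 : ((∏ r' ∈ univ.erase r, n r' : ℕ) : ℝ) ≤ (M ^ Fintype.card κ : ℕ) := by
          exact_mod_cast (prod_le_pow_card _ _ _ fun r _ => n2 r).trans
            (Nat.pow_le_pow_right hM1 (card_le_univ _))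
        rw [← mul_prod_erase _ _ (mem_univ r), mul_comm (n r), Nat.cast_mul]
        simp only [mul_assoc]
        constructor
        · have := ((n3 r).mono c4).nsmul (∏ r' ∈ univ.erase r, n r')
          rw [show ty r ∪ B = insert i (ty r) ∪ B.erase i by
            rw [insert_union, ← union_insert, insert_erase hi]] at this
          exact this.mono (by gcongr)
        · have := ((n4 r).mono c5).nsmul (∏ r' ∈ univ.erase r, n r')
          rw [fce_sdiff_st, erase_union_distrib, erase_eq_of_notMem (hi' r)] at this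
          exact this.mono (by gcongr))))
  refine ⟨q, hq1, hq2, ?_⟩
  have h4 := (mul_le_mul_of_nonneg_left hq3 (mul_pos (half_pos hβ) pP).le).trans
    (fib_back h hc (fce S B) i fun y x hy r => by
      have e : ∀ j ∉ S.st i, toR y j = toR (put (fce S B ∩ S.st i) x y) j := fun j hj => by
        rw [toR_put, put_neg _ _ fun a => hj (mem_inter.1 a).2]
      exact ⟨(hy r).1.congr fun j hj => e j fun a =>
          (mem_sdiff.1 hj).2 (MS.st_subset_sts (mem_insert_self _ _) a),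
        (hy r).2.congr fun j hj => e j fun a => by
          have := mem_fce.1 (mem_sdiff.1 hj).1 (S.mem_st.1 a)
          simp [hi' r] at this⟩)
  rw [den, le_div_iff₀ (vl_pos h.pd _), h.vl_st (fce S B) i]
  exact le_of_eq_of_le (by ring) h4

theorem den_mono (h : S.Ok) (F : Finset V) {E E' : (ι → ℝ) → Prop}
    (e : ∀ z, E (toR z) → E' (toR z)) : den S F E ≤ den S F E' :=
  div_le_div_of_nonneg_right (wt_ind_mono h _ e) (vl_pos h.pd _).le

theorem fin_num {P β Q W : ℝ} (hP : 4 ≤ P) (hβ0 : 0 < β) (hβ : 1 ≤ β * P ^ 1) (hQ : 0 < Q)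
    (h : Q * P ^ 4 ≤ W) : W⁻¹ ≤ β / 2 * (β / 4) / Q := by
  have hW : 0 < W := lt_of_lt_of_le (by positivity) h
  rw [le_div_iff₀ hQ, inv_mul_le_iff₀ hW]
  have e3 := mul_le_mul hβ hβ zero_le_one (by positivity)
  have e5 : 16 ≤ P ^ 2 := by nlinarith
  have e2 : 8 ≤ β * β * P ^ 4 := by nlinarith [mul_le_mul e3 e5 (by norm_num) (by positivity)]
  nlinarith [mul_le_mul_of_nonneg_left e2 hQ.le, mul_le_mul_of_nonneg_left h (mul_pos hβ0 hβ0).le]

theorem dv1 (V : Type) [Fintype V] [DecidableEq V] : DV1 V := by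
  obtain ⟨a, ha⟩ : ∃ a, a = 2 * Fintype.card V + 144 := ⟨_, rfl⟩
  refine ⟨a + 4, ?_⟩
  intro ι _ _ S B i κ _ ty f E Y h hc hY hi hty hf hE hι hκ hs hN hd
  obtain ⟨P, hPd⟩ : ∃ P, P = exp (2 * Y) := ⟨_, rfl⟩
  have hP : 4 ≤ P := by linarith [add_one_le_exp (2 * Y)]
  have hP1 : 1 ≤ P := by linarith
  have hP0 : 0 < P := by linarith
  have mono : ∀ {n m}, n ≤ m → P ^ n ≤ P ^ m := fun e => pow_le_pow_right₀ hP1 e
  have hYP : exp Y ≤ P := hPd ▸ exp_le_exp.2 (by linarith)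
  have hβ0 := exp_pos (-Y)
  have hβ1 : exp (-Y) ≤ 1 := exp_le_one_iff.2 (by linarith)
  have hβ : 1 ≤ exp (-Y) * P ^ 1 := by
    rw [pow_one, hPd, ← Real.exp_add]; exact one_le_exp (by linarith)
  have hk0 : (0 : ℝ) ≤ Fintype.card κ := Nat.cast_nonneg _
  have big := exp_pow_le hY a hκ
  rw [← hPd] at big
  have big1 : 1 ≤ exp (Fintype.card κ * (2 * a * Y)) := one_le_exp (by positivity)
  have hW : P ^ a ≤ exp (Y ^ (a + 4)) := (le_mul_of_one_le_right (by positivity) big1).trans big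
  obtain ⟨D, hDd⟩ : ∃ D, D = max (Fintype.card ι) 1 := ⟨_, rfl⟩
  obtain ⟨M, hM⟩ : ∃ M, M = ⌈P ^ (8 * (1 + 1) + 19)⌉₊ := ⟨_, rfl⟩
  have hD0 : 1 ≤ D := hDd ▸ le_max_right _ 1
  have hD' : (D : ℝ) ≤ P := by
    rw [hDd, Nat.cast_max]; exact max_le (hι.trans hYP) (by simpa using hP1)
  have hD1 : (1 : ℝ) ≤ D := by exact_mod_cast hD0
  have hβ2 : 1 ≤ exp (-Y) / 2 * P ^ (1 + 1) := by
    rw [pow_succ]; nlinarith [mul_le_mul hβ hP (by norm_num) (by positivity)]
  obtain ⟨a1, a2, a3, a4, a5, a6, -⟩ := step_num hP (1 + 1) (Fintype.card V) hD' le_rfl hM hβ2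
    (half_pos hβ0)
  have hM0 : (0 : ℝ) ≤ M := Nat.cast_nonneg _
  have hK1 : exp Y ≤ P ^ (1 + 1) := hYP.trans (le_self_pow₀ hP1 (by norm_num))
  have b1 : P ^ (25 * (1 + 1) + 65 + Fintype.card V) ≤ exp (Y ^ (a + 4)) :=
    (mono (by omega)).trans hW
  have hη : exp (-Y ^ (a + 4)) * P ^ a ≤ 1 := by
    rw [Real.exp_neg, inv_mul_le_iff₀ (exp_pos _), mul_one]; exact hW
  have hη0 := (exp_pos (-Y ^ (a + 4))).le
  obtain ⟨c4, c5⟩ := aff_num hP hD1 hD' hM0 (exp_pos Y).le hβ0 hβ a6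
  obtain ⟨q, hq1, hq2, hq3⟩ := dv_fam h hc hi hty hf (exp_pos Y).le (hDd ▸ le_max_left _ _) hD0
    hβ0 hβ1 a1 (a3.trans b1) (le_trans (by gcongr) (a4.trans b1))
    (le_trans (by gcongr) (a5.trans b1)) hη0 (eta_num (n := a - 1) hP (by positivity) hβ (by omega)
      (le_trans (by
        rw [mul_assoc, show a = a - 1 + 1 by omega, pow_succ' P, Nat.add_sub_cancel]
        gcongr
        linarith [add_one_le_exp Y]) hη))
    (Smo.mono h hc (cls_univ S) (cls_univ S) hs le_rfl (Nat.cast_le.1 ((Nat.le_ceil _).trans' (by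
      have h1 := pow_le_pow_left₀ (by norm_num : (0 : ℝ) ≤ 2) hY 2
      have h2 := pow_le_pow_right₀ (by linarith : 1 ≤ Y) (show 2 ≤ a + 4 by omega)
      norm_num at h1 ⊢; linarith))) (exp_pos _) le_rfl le_rfl) c4 c5 hN hd
  have hMk : ((M ^ Fintype.card κ : ℕ) : ℝ) ≤ exp (Fintype.card κ * (2 * a * Y)) := by
    rw [exp_nat_mul, Nat.cast_pow]
    refine pow_le_pow_left₀ hM0 (a2.trans ((mono (m := a) (by omega)).trans_eq ?_)) _
    rw [hPd, ← exp_nat_mul]; congr 1; ring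
  have hq5 : (0 : ℝ) < (M ^ Fintype.card κ : ℕ) := by exact_mod_cast hq1.trans_le hq2
  have hq4 : ((M ^ Fintype.card κ : ℕ) : ℝ) * P ^ a ≤ exp (Y ^ (a + 4)) :=
    le_trans (by rw [mul_comm]; gcongr) big
  have c6 : (M ^ Fintype.card κ : ℕ) * (exp Y * P ^ (25 * 1 + 92)) ≤ exp (Y ^ (a + 4)) :=
    le_trans (mul_le_mul_of_nonneg_left ((mul_le_mul_of_nonneg_right hYP (by positivity)).trans
      ((pow_succ' P _).symm.trans_le (mono (by omega)))) hq5.le) hq4
  refine ⟨q, hq1, le_trans (by exact_mod_cast hq2)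
    ((le_mul_of_one_le_right hq5.le (one_le_pow₀ hP1)).trans hq4), le_trans ?_ (hq3.trans
      (den_mono h _ fun z hz => ⟨hz.1, fun r => ⟨(hz.2 r).1.mono c6, (hz.2 r).2.mono c6⟩⟩))⟩
  rw [Real.exp_neg (Y ^ (a + 4))]
  exact fin_num hP hβ0 hβ hq5 ((mul_le_mul_of_nonneg_left (mono (by omega)) hq5.le).trans hq4)

end

end Vale.Agent.P057T1
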