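import Vale.Agent.P057G.Ms7
import Vale.Agent.P057MA.Defs

/-!
Algebra of forms on multi-affine systems: maps compatible with a star, the zero position section,
boundedness on the unit ball.
-/

open Matrix Finset
open scoped Real
open Vale.Agent.P267.H775 Vale.Agent.P057G Vale.Agent.P057MA

namespace Vale.Agent.P057T1

noncomputable section

variable {V ι : Type*} [DecidableEq ι]

/-- maps that are linear along `r` and do not move the other coordinates -/
structure RMap (r : Finset ι) (m : (ι → ℝ) → ι → ℝ) : Prop where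
  out : ∀ j ∉ r, ∀ x y, m (mix r x y) j = m (mix r 0 y) j
  lin : ∀ j ∈ r, Lin r fun z => m z j

theorem lin_sub {r : Finset ι} {f g : (ι → ℝ) → ℝ} (h : Lin r f) (h' : Lin r g) :
    Lin r fun z => f z - g z := fun y =>
  ⟨fun a b => by beta_reduce; rw [(h y).map_add, (h' y).map_add]; ring,
    fun c a => by beta_reduce; rw [(h y).map_smul, (h' y).map_smul, smul_sub]⟩

theorem lin_add {r : Finset ι} {f g : (ι → ℝ) → ℝ} (h : Lin r f) (h' : Lin r g) :
    Lin r fun z => f z + g z := fun y =>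
  ⟨fun a b => by beta_reduce; rw [(h y).map_add, (h' y).map_add]; ring,
    fun c a => by beta_reduce; rw [(h y).map_smul, (h' y).map_smul, smul_add]⟩

theorem lin_mul {r : Finset ι} (c : ℝ) {f : (ι → ℝ) → ℝ} (h : Lin r f) :
    Lin r fun z => c * f z := fun y =>
  ⟨fun a b => by beta_reduce; rw [(h y).map_add]; ring,
    fun c a => by beta_reduce; rw [(h y).map_smul]; simp only [smul_eq_mul]; ring⟩

theorem lin_zero (r : Finset ι) : Lin r fun _ => (0 : ℝ) := fun _ =>
  ⟨fun _ _ => by simp, fun _ _ => by simp⟩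

theorem lin_coord {r : Finset ι} {j : ι} (hj : j ∈ r) : Lin r fun z => z j := fun _ =>
  ⟨fun _ _ => by simp [mix_pos _ _ hj], fun _ _ => by simp [mix_pos _ _ hj]⟩

theorem lin_comp {r : Finset ι} {f : (ι → ℝ) → ℝ} (hf : Lin r f) {m : (ι → ℝ) → ι → ℝ}
    (hm : RMap r m) : Lin r fun z => f (m z) := by
  intro y
  have e : ∀ x, m (mix r x y) = mix r (m (mix r x y)) (m (mix r 0 y)) := fun x => by
    funext j
    by_cases hj : j ∈ r
    · rw [mix_pos _ _ hj]
    · rw [mix_neg _ _ hj, hm.out j hj]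
  have e2 : ∀ x x' : ι → ℝ, (∀ j ∈ r, x j = x' j) →
      f (mix r x (m (mix r 0 y))) = f (mix r x' (m (mix r 0 y))) := fun x x' hx => by
    congr 1; funext j
    by_cases hj : j ∈ r
    · rw [mix_pos _ _ hj, mix_pos _ _ hj, hx j hj]
    · rw [mix_neg _ _ hj, mix_neg _ _ hj]
  constructor
  · intro a b
    beta_reduce
    rw [e (a + b), e a, e b, ← (hf _).map_add]
    exact e2 _ _ fun j hj => (hm.lin j hj y).map_add a b
  · intro c a
    beta_reduce
    rw [e (c • a), e a, ← (hf _).map_smul]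
    exact e2 _ _ fun j hj => (hm.lin j hj y).map_smul c a

theorem RMap.id (r : Finset ι) : RMap r fun z => z :=
  ⟨fun _ hj _ _ => by rw [mix_neg _ _ hj, mix_neg _ _ hj], fun _ hj => lin_coord hj⟩

theorem RMap.zero (r : Finset ι) : RMap r fun _ => 0 :=
  ⟨fun _ _ _ _ => rfl, fun _ _ => lin_zero r⟩

theorem RMap.add {r : Finset ι} {m m' : (ι → ℝ) → ι → ℝ} (h : RMap r m) (h' : RMap r m') :
    RMap r fun z => m z + m' z :=
  ⟨fun j hj x y => by simp only [Pi.add_apply, h.out j hj x y, h'.out j hj x y],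
    fun j hj => lin_add (h.lin j hj) (h'.lin j hj)⟩

theorem RMap.sub {r : Finset ι} {m m' : (ι → ℝ) → ι → ℝ} (h : RMap r m) (h' : RMap r m') :
    RMap r fun z => m z - m' z :=
  ⟨fun j hj x y => by simp only [Pi.sub_apply, h.out j hj x y, h'.out j hj x y],
    fun j hj => lin_sub (h.lin j hj) (h'.lin j hj)⟩

theorem RMap.mix {r : Finset ι} (N : Finset ι) {m m' : (ι → ℝ) → ι → ℝ} (h : RMap r m)
    (h' : RMap r m') : RMap r fun z => mix N (m z) (m' z) := by
  constructor
  · intro j hj x y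
    by_cases hN : j ∈ N
    · rw [mix_pos _ _ hN, mix_pos _ _ hN, h.out j hj]
    · rw [mix_neg _ _ hN, mix_neg _ _ hN, h'.out j hj]
  · intro j hj
    by_cases hN : j ∈ N
    · simpa only [mix_pos _ _ hN] using h.lin j hj
    · simpa only [mix_neg _ _ hN] using h'.lin j hj

theorem RMap.comp {r : Finset ι} {m m' : (ι → ℝ) → ι → ℝ} (h : RMap r m) (h' : RMap r m') :
    RMap r fun z => m (m' z) := by
  refine ⟨fun j hj x y => ?_, fun j hj => lin_comp (h.lin j hj) h'⟩
  have e : ∀ x, m' (P057G.mix r x y) =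
      P057G.mix r (m' (P057G.mix r x y)) (m' (P057G.mix r 0 y)) := fun x => by
    funext j
    by_cases hj : j ∈ r
    · rw [mix_pos _ _ hj]
    · rw [mix_neg _ _ hj, h'.out j hj]
  rw [e x, h.out j hj]
  conv_rhs => rw [e 0, h.out j hj]

theorem RMap.perm {r : Finset ι} {σ : ι → ι} (h : ∀ j, σ j ∈ r ↔ j ∈ r) :
    RMap r fun z => z ∘ σ :=
  ⟨fun j hj _ _ => by
    have : σ j ∉ r := fun e => hj ((h j).1 e)
    simp only [Function.comp, mix_neg _ _ this],
    fun j hj => lin_coord ((h j).2 hj)⟩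

/-- a function that is linear along a set is affine in each of its coordinates -/
theorem lin_update {r : Finset ι} {f : (ι → ℝ) → ℝ} (h : Lin r f) {j : ι} (hj : j ∈ r)
    (z : ι → ℝ) (t : ℝ) : f (Function.update z j t) = f (Function.update z j 0) +
      t * (f (Function.update z j 1) - f (Function.update z j 0)) := by
  have e : ∀ s : ℝ, Function.update z j s =
      mix r (Function.update z j 0 + s • (Pi.single j 1 : ι → ℝ)) z := fun s => by
    funext i
    by_cases hi : i = j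
    · subst hi; simp [mix_pos _ _ hj]
    · rw [Function.update_of_ne hi]
      by_cases hr : i ∈ r
      · simp [mix_pos _ _ hr, Function.update_of_ne hi, Pi.single_eq_of_ne hi]
      · rw [mix_neg _ _ hr]
  have e2 : ∀ s : ℝ, f (Function.update z j s) = f (mix r (Function.update z j 0) z) +
      s * f (mix r (Pi.single j 1) z) := fun s => by
    rw [e s, (h z).map_add, (h z).map_smul, smul_eq_mul]
  rw [e2 t, e2 0, e2 1]; ring

/-- coordinatewise affine functions are bounded on boxes -/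
theorem bdd_box {f : (ι → ℝ) → ℝ} (R : ℝ) (s : Finset ι)
    (h : ∀ j ∈ s, ∃ r, j ∈ r ∧ Lin r f) (y : ι → ℝ) :
    ∃ C, ∀ z : ι → ℝ, (∀ j ∈ s, |z j| ≤ R) → |f (mix s z y)| ≤ C := by
  induction s using Finset.induction_on generalizing y with
  | empty => exact ⟨|f y|, fun z _ => by
      rw [show mix ∅ z y = y from funext fun j => by simp [mix]]⟩
  | insert j s hj ih =>
    obtain ⟨C0, h0⟩ := ih (fun i hi => h i (mem_insert_of_mem hi)) (Function.update y j 0)
    obtain ⟨C1, h1⟩ := ih (fun i hi => h i (mem_insert_of_mem hi)) (Function.update y j 1)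
    obtain ⟨r, hr, hl⟩ := h j (mem_insert_self _ _)
    refine ⟨C0 + R * (C1 + C0), fun z hz => ?_⟩
    have e : ∀ t, Function.update (mix s z y) j t = mix s z (Function.update y j t) := fun t => by
      funext i
      by_cases hi : i = j
      · subst hi; rw [Function.update_self, mix_neg _ _ hj, Function.update_self]
      · simp only [Function.update_of_ne hi, mix]
    have e0 : mix (insert j s) z y = Function.update (mix s z y) j (z j) := by
      funext i
      by_cases hi : i = j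
      · subst hi; rw [Function.update_self, mix_pos _ _ (mem_insert_self _ _)]
      · simp only [Function.update_of_ne hi, mix, mem_insert, hi, false_or]
    have a0 := h0 z fun i hi => hz i (mem_insert_of_mem hi)
    have a1 := h1 z fun i hi => hz i (mem_insert_of_mem hi)
    rw [e0, lin_update hl hr, e 0, e 1]
    refine (abs_add_le _ _).trans (add_le_add a0 ?_)
    rw [abs_mul]
    exact mul_le_mul (hz j (mem_insert_self _ _)) ((abs_sub _ _).trans (add_le_add a1 a0))
      (abs_nonneg _) ((abs_nonneg _).trans (hz j (mem_insert_self _ _)))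

theorem bdd_loc {f : (ι → ℝ) → ℝ} (R : ℝ) {s : Finset ι} (hs : On s f)
    (h : ∀ j ∈ s, ∃ r, j ∈ r ∧ Lin r f) :
    ∃ C, ∀ z : ι → ℝ, (∀ j ∈ s, |z j| ≤ R) → |f z| ≤ C := by
  obtain ⟨C, hC⟩ := bdd_box R s h 0
  exact ⟨C, fun z hz => by rw [hs z (mix s z 0) fun j hj => (mix_pos _ _ hj).symm]; exact hC z hz⟩

variable [Fintype ι] [DecidableEq V] {S : MS V ι}

theorem rmap_p (h : S.Ok) (hc : S.Cen) (v : V) : RMap (S.st v) S.p := by
  refine ⟨fun j hj x y => h.loc j _ _ fun k hk => ?_, fun j hj => h.lin hc (S.mem_st.1 hj)⟩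
  have : k ∉ S.st v := fun e => hj (S.mem_st.2 (hk.1 (S.mem_st.1 e)))
  rw [mix_neg _ _ this, mix_neg _ _ this]

theorem cls_p (h : S.Ok) {r : Finset ι} (hr : Cls S r) {z z' : ι → ℝ}
    (e : ∀ j ∈ r, z j = z' j) {i : ι} (hi : i ∈ r) : S.p z i = S.p z' i :=
  h.loc i z z' fun j hj => e j (hr.dep i hi j hj)

/-- successive approximations of the point with position zero on `N` -/
def sec (S : MS V ι) (N : Finset ι) : ℕ → (ι → ℝ) → ι → ℝ
  | 0 => fun z => mix N 0 z
  | n + 1 => fun z => mix N (S.p (sec S N n z)) z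

theorem rmap_sec (h : S.Ok) (hc : S.Cen) (v : V) (N : Finset ι) :
    ∀ n, RMap (S.st v) (sec S N n)
  | 0 => (RMap.zero _).mix N (RMap.id _)
  | n + 1 => ((rmap_p h hc v).comp (rmap_sec h hc v N n)).mix N (RMap.id _)

omit [Fintype ι] [DecidableEq V] in
theorem sec_out {N : Finset ι} {j : ι} (hj : j ∉ N) (z : ι → ℝ) : ∀ n, sec S N n z j = z j
  | 0 => mix_neg _ _ hj
  | _ + 1 => mix_neg _ _ hj

theorem sec_stab (h : S.Ok) (N : Finset ι) (z : ι → ℝ) :
    ∀ n j, S.lv j < n → sec S N (n + 1) z j = sec S N n z j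
  | 0, _, hj => absurd hj (Nat.not_lt_zero _)
  | n + 1, j, hj => by
    by_cases hN : j ∈ N
    · change mix N _ z j = mix N _ z j
      rw [mix_pos _ _ hN, mix_pos _ _ hN]
      exact h.loc j _ _ fun k hk => sec_stab h N z n k (by have := hk.2; omega)
    · rw [sec_out hN, sec_out hN]

/-- the zero position section -/
def sc (S : MS V ι) (N : Finset ι) : (ι → ℝ) → ι → ℝ := sec S N (univ.sup S.lv + 1)

theorem sc_fix (h : S.Ok) {N : Finset ι} (z : ι → ℝ) {j : ι} (hj : j ∈ N) :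
    sc S N z j = S.p (sc S N z) j := by
  have := sec_stab h N z (univ.sup S.lv + 1) j (Nat.lt_succ_of_le (le_sup (mem_univ j)))
  rw [sc, ← this]
  exact mix_pos _ _ hj

omit [DecidableEq V] in
theorem sc_out {N : Finset ι} {j : ι} (hj : j ∉ N) (z : ι → ℝ) : sc S N z j = z j :=
  sec_out hj z _

theorem rmap_sc (h : S.Ok) (hc : S.Cen) (v : V) (N : Finset ι) : RMap (S.st v) (sc S N) :=
  rmap_sec h hc v N _

theorem sec_loc (h : S.Ok) {r N : Finset ι} (hr : Cls S r) {z z' : ι → ℝ}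
    (e : ∀ j ∈ r \ N, z j = z' j) : ∀ n, ∀ j ∈ r, sec S N n z j = sec S N n z' j
  | 0, j, hj => by
    by_cases hN : j ∈ N
    · change mix N _ z j = mix N _ z' j
      rw [mix_pos _ _ hN, mix_pos _ _ hN]
    · rw [sec_out hN, sec_out hN, e j (mem_sdiff.2 ⟨hj, hN⟩)]
  | n + 1, j, hj => by
    by_cases hN : j ∈ N
    · change mix N _ z j = mix N _ z' j
      rw [mix_pos _ _ hN, mix_pos _ _ hN]
      exact cls_p h hr (sec_loc h hr e n) hj
    · rw [sec_out hN, sec_out hN, e j (mem_sdiff.2 ⟨hj, hN⟩)]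

theorem sc_loc (h : S.Ok) {r N : Finset ι} (hr : Cls S r) {z z' : ι → ℝ}
    (e : ∀ j ∈ r \ N, z j = z' j) : ∀ j ∈ r, sc S N z j = sc S N z' j := sec_loc h hr e _

/-- the unit ball of the positions on `s`, the other coordinates of `r` being frozen at `y` -/
def Bal (S : MS V ι) (r s : Finset ι) (y z : ι → ℝ) : Prop :=
  (∀ j ∈ r \ s, z j = y j) ∧ ln2 S s z ≤ 1

theorem coord_le {G : Matrix ι ι ℝ} (hG : G.PosDef) (u : ι → ℝ) (j : ι) :
    u j ^ 2 ≤ qq G u * qq G⁻¹ (Pi.single j 1) := by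
  simpa using dot_sq_le hG u (Pi.single j 1)

/-- the coordinates are bounded on the unit ball -/
theorem ball_bdd (h : S.Ok) (hc : S.Cen) {r : Finset ι} (hr : Cls S r) (s : Finset ι)
    (y : ι → ℝ) : ∃ R, ∀ z : ι → ℝ, Bal S r s y z → ∀ j ∈ r, |z j| ≤ R := by
  obtain ⟨B, hB⟩ : ∃ B, ∀ z : ι → ℝ, ln2 S s z ≤ 1 → ∀ j ∈ s, |z j - S.p z j| ≤ B := by
    refine ⟨∑ j, √(qq S.G⁻¹ (Pi.single j 1)), fun z hz j hj => ?_⟩
    refine le_trans ?_ (single_le_sum (f := fun j => √(qq S.G⁻¹ (Pi.single j 1)))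
      (fun _ _ => Real.sqrt_nonneg _) (mem_univ j))
    refine Real.abs_le_sqrt ?_
    have := coord_le h.pd (msk s (z - S.p z)) j
    rw [msk_pos _ hj] at this
    exact this.trans (mul_le_of_le_one_left (qq_nonneg h.pd.inv.posSemidef _) hz)
  suffices H : ∀ n, ∃ R, ∀ z : ι → ℝ, Bal S r s y z → ∀ j ∈ r, S.lv j < n → |z j| ≤ R by
    obtain ⟨R, hR⟩ := H (univ.sup S.lv + 1)
    exact ⟨R, fun z hz j hj => hR z hz j hj (Nat.lt_succ_of_le (le_sup (mem_univ j)))⟩
  intro n
  induction n with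
  | zero => exact ⟨0, fun _ _ _ _ hj => absurd hj (Nat.not_lt_zero _)⟩
  | succ n ih =>
    obtain ⟨R, hR⟩ := ih
    classical
    have : ∀ i, ∃ C, ∀ z : ι → ℝ, (∀ j ∈ univ.filter (S.Dep i), |z j| ≤ R) → |S.p z i| ≤ C :=
      fun i => bdd_loc R (fun z z' e => h.loc i z z' fun j hj => e j (by simpa using hj))
        fun j hj => by
          obtain ⟨v, hv⟩ := hc.ne j
          exact ⟨S.st v, S.mem_st.2 hv, h.lin hc ((mem_filter.1 hj).2.1 hv)⟩
    choose C hC using this
    refine ⟨|B| + ∑ i, |C i| + ∑ i, |y i|, fun z hz j hj hn => ?_⟩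
    have h2 : |C j| ≤ ∑ i, |C i| :=
      single_le_sum (f := fun i => |C i|) (fun _ _ => abs_nonneg _) (mem_univ j)
    have h5 : |y j| ≤ ∑ i, |y i| :=
      single_le_sum (f := fun i => |y i|) (fun _ _ => abs_nonneg _) (mem_univ j)
    by_cases hs : j ∈ s
    · have h1 := hC j z fun k hk => hR z hz k (hr.dep j hj k (mem_filter.1 hk).2)
        (by have := (mem_filter.1 hk).2.2; omega)
      have h3 := hB z hz.2 j hs
      have h4 := abs_add_le (z j - S.p z j) (S.p z j)
      rw [sub_add_cancel] at h4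
      linarith [le_abs_self (C j), le_abs_self B, abs_nonneg (y j)]
    · rw [hz.1 j (mem_sdiff.2 ⟨hj, hs⟩)]
      linarith [abs_nonneg B, abs_nonneg (C j)]

/-- forms are bounded on the unit ball -/
theorem form_bdd (h : S.Ok) (hc : S.Cen) {r : Finset ι} (hr : Cls S r) {s : Finset ι}
    (hs : s ⊆ r) (y : ι → ℝ) {f : (ι → ℝ) → ℝ} (hl : On r f)
    (hf : ∀ j ∈ s, ∃ t, j ∈ t ∧ Lin t f) : ∃ C, ∀ z : ι → ℝ, Bal S r s y z → |f z| ≤ C := by
  obtain ⟨R, hR⟩ := ball_bdd h hc hr s y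
  obtain ⟨C, hC⟩ := bdd_box R s hf y
  refine ⟨C, fun z hz => ?_⟩
  rw [hl z (mix s z y) fun j hj => ?_]
  · exact hC z fun j hj => hR z hz j (hs hj)
  · by_cases hj' : j ∈ s
    · rw [mix_pos _ _ hj']
    · rw [mix_neg _ _ hj', hz.1 j (mem_sdiff.2 ⟨hj, hj'⟩)]

omit [Fintype ι] [DecidableEq V] in
theorem lin_diff {r : Finset ι} {f : (ι → ℝ) → ℝ} (h : Lin r f) {u v : ι → ℝ}
    (e : ∀ j ∉ r, v j = u j) : f u - f v = f (mix r (u - v) u) := by
  have h1 : v = mix r v u := funext fun j => by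
    by_cases hj : j ∈ r
    · rw [mix_pos _ _ hj]
    · rw [mix_neg _ _ hj, e j hj]
  rw [(h u).map_sub, mix_self, ← h1]

theorem ln2_split (h : S.Ok) {r : Finset ι} (hr : Sat S.G r) (q : Finset ι) (z : ι → ℝ) :
    ln2 S q z = ln2 S (q ∩ r) z + ln2 S (q \ r) z := qq_msk_split h.pd.1 hr q _

omit [DecidableEq V] in
theorem ln2_congr {q : Finset ι} {z z' : ι → ℝ}
    (e : ∀ j ∈ q, z j - S.p z j = z' j - S.p z' j) : ln2 S q z = ln2 S q z' := by
  unfold ln2; rw [msk_congr (u := z - S.p z) (w := z' - S.p z') e]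

theorem cls_sdiff_sts {q : Finset ι} (h : Cls S q) (A : Finset V) : Cls S (q \ S.sts A) :=
  ⟨fun i j a b hi => mem_sdiff.2 ⟨h.blk i j a b (mem_sdiff.1 hi).1, fun hj =>
      (mem_sdiff.1 hi).2 (MS.mem_sts.2 (a ▸ MS.mem_sts.1 hj))⟩,
    fun i hi j hj => mem_sdiff.2 ⟨h.dep i (mem_sdiff.1 hi).1 j hj, fun h2 => by
      obtain ⟨v, h3, h4⟩ := MS.mem_sts.1 h2
      exact (mem_sdiff.1 hi).2 (MS.mem_sts.2 ⟨v, h3, hj.1 h4⟩)⟩⟩

/-- the Gram matrix of a vertex fibre computes the length of real points -/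
theorem ln2_fg (h : S.Ok) (hc : S.Cen) {q : Finset ι} (hq : Cls S q) (v : V) (y z : ι → ℝ)
    (e : ∀ j ∈ q \ S.st v, z j = y j) :
    ln2 S (q ∩ S.st v) z = qq (S.fg q v y) fun i => z i := by
  rw [ln2, qq_msk, MS.fg, qq_conj]
  congr 1; funext i
  have hi := mem_inter.1 i.2
  have h1 := (h.lin hc (S.mem_st.1 hi.2)).aff.put_eq (s := q ∩ S.st v) inter_subset_right
    (y := mix (S.st v) 0 y) (fun j hj _ => mix_pos _ _ hj) fun j => z j
  have h3 : ∀ a, mix (S.st v) a (mix (S.st v) 0 y) = mix (S.st v) a y := fun a => by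
    funext j; simp only [mix]; split_ifs <;> rfl
  have h4 : S.p z i = S.p (put (q ∩ S.st v) (fun j => z j) (mix (S.st v) 0 y)) i := by
    refine cls_p h hq (fun j hj => ?_) hi.1
    by_cases hv : j ∈ S.st v
    · rw [put_pos _ _ (mem_inter.2 ⟨hj, hv⟩)]
    · rw [put_neg _ _ fun a => hv (mem_inter.1 a).2, mix_neg _ _ hv, e j (mem_sdiff.2 ⟨hj, hv⟩)]
  have h2 : blk (S.lm v y) (q ∩ S.st v) = 1 - Matrix.of fun i j : ↥(q ∩ S.st v) =>
      slp (S.st v) (fun z => S.p z i) y j := by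
    ext a b
    simp only [blk, MS.lm, submatrix_apply, Matrix.sub_apply, of_apply, one_apply, Subtype.ext_iff]
  beta_reduce at h1
  simp only [slp, h3, hc.zero v i (S.mem_st.1 hi.2), zero_add] at h1
  rw [Pi.sub_apply, h4, h1, h2, sub_mulVec, one_mulVec]
  simp only [Pi.sub_apply, mulVec, dotProduct, of_apply, slp, hc.zero v i (S.mem_st.1 hi.2)]

end

end Vale.Agent.P057T1
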