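import Vale.Agent.P057T1.Bias
import Vale.Agent.P057MA.Step

/-!
The dichotomy for biased forms in the format used by the regularisation.
-/

open Finset
open Vale.Agent.P057G Vale.Agent.P057MA

namespace Vale.Agent.P057T1

/-- one exponent for all vertex sets of bounded size -/
theorem bp_all : ∃ c : ℕ → ℕ, ∀ (V : Type) [Fintype V] [DecidableEq V] (n : ℕ),
    Fintype.card V ≤ n → BP V (c n) := by
  obtain ⟨c, hc⟩ := bias_near.{0, 0}
  refine ⟨fun n => (range (n + 1)).sup c + 4, ?_⟩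
  intro V _ _ n hn ι _ _ S h hce q F Φ D δ W η N hq hF _ hΦ hδ hδ1 hD hqD hW hη hN hs hb
  have h1 : c F.card ≤ (range (n + 1)).sup c + 4 :=
    (le_sup (f := c) (mem_range.2 (Nat.lt_succ_of_le ((card_le_univ F).trans hn)))).trans
      (Nat.le_add_right _ _)
  have h2 : 1 ≤ D / δ := by rw [le_div_iff₀ hδ]; linarith
  have h3 := pow_le_pow_right₀ h2 h1
  have h4 : δ / D ≤ 1 := by rw [div_le_one (by linarith)]; linarith
  obtain ⟨Q, a, b, d⟩ := hc h hce hq hF hΦ hδ hδ1 hD hqD (h3.trans hW)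
    (hη.trans (pow_le_pow_of_le_one (div_nonneg hδ.le (by linarith)) h4 h1))
    ((Nat.le_add_left _ _).trans hN) hs hb
  exact ⟨Q, a, b.trans h3, d.mono h3⟩

theorem bp (V : Type) [Fintype V] [DecidableEq V] : ∃ c, BP V c :=
  let ⟨c, hc⟩ := bp_all
  ⟨c _, hc V _ le_rfl⟩

end Vale.Agent.P057T1
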