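import Vale.Agent.P057T1.Four

/-!
Dense vanishing: one frozen vertex is released.
-/

set_option linter.unusedSectionVars false

open Matrix Finset
open scoped Real
open Vale.Agent.P267.H775 Vale.Agent.P057G Vale.Agent.P057MA Vale.Agent.P057HU

namespace Vale.Agent.P057T1

noncomputable section

variable {V ι : Type*} [DecidableEq ι] [Fintype ι] [DecidableEq V] [Fintype V] {S : MS V ι}

theorem th_inv_smul {κ : Type*} [Fintype κ] [DecidableEq κ] {H : Matrix κ κ ℝ} (hH : H.PosDef)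
    {a b : ℝ} (ha : 0 < a) (hab : a ≤ b) : th (a • H)⁻¹ 0 ≤ th (b • H)⁻¹ 0 :=
  th_inv_mono (hH.smul ha) (hH.smul (ha.trans_le hab)) (fun x => by
    rw [qq_smul_mat, qq_smul_mat]
    exact mul_le_mul_of_nonneg_right hab (qq_nonneg hH.posSemidef x)) 0

omit [Fintype V] in
theorem fm_kill {q : Finset ι} {A : Finset V} (w : V) {Φ : (ι → ℝ) → ℝ} (h : Fm S q A Φ) :
    Fm S (q \ S.st w) A fun z => Φ (mix (S.st w) 0 z) := by
  refine ⟨fun z z' e => h.on _ _ fun j hj => ?_,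
    fun v hv => P057T1.lin_comp (h.lin v hv) ((RMap.zero _).mix _ (RMap.id _))⟩
  by_cases h1 : j ∈ S.st w
  · rw [mix_pos _ _ h1, mix_pos _ _ h1]
  · rw [mix_neg _ _ h1, mix_neg _ _ h1]
    exact e j (mem_sdiff.2 ⟨hj, h1⟩)

omit [Fintype V] in
theorem fm_lab {q : Finset ι} {A : Finset V} {w : V} {Φ : (ι → ℝ) → ℝ} (h : Fm S q A Φ)
    (hw : Aff (S.st w) Φ) : Fm S q (insert w A) (lab S w Φ) := by
  have h1 : Fm S q A (lab S w Φ) := h.sub ((fm_kill w h).mono sdiff_subset le_rfl)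
  refine ⟨h1.on, fun v hv => ?_⟩
  rcases mem_insert.1 hv with rfl | hv'
  · exact hw.lin_part
  · exact h1.lin v hv'

theorem fib_aff (h : S.Ok) (hc : S.Cen) {q : Finset ι} (hq : Cls S q) {A : Finset V} {w : V}
    (hw : w ∉ A) {Φ : (ι → ℝ) → ℝ} (hΦ : Fm S q A Φ) (hΦw : Aff (S.st w) Φ) (y : ι → ℤ) {K : ℝ}
    (hK : 0 ≤ K) (D M : ℕ) (hD : q.card ≤ D) (hD1 : 1 ≤ D) {β W : ℝ} (hβ : 0 < β)
    (hM : 5 ≤ M * (β ^ 4 / 8192) ^ 2) (hW : 64 * (D : ℝ) ^ 2 * (M : ℝ) ^ 2 ≤ W)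
    (hf : th (W ^ 2 • S.fg (q \ S.sts A) w (toR y))⁻¹ 0 ≤ 3 / 2)
    (hU : UF S (q \ S.st w) A ((M : ℝ) ^ 3 * (6 * K)) (toR y))
    (Y : Set (↥((q \ S.sts A) ∩ S.st w) → ℤ)) (hY : ∀ x ∈ Y, NF S q A Φ K (toR (put _ x y)))
    (hm : β * vol (S.fg (q \ S.sts A) w (toR y)) ≤
      ∑' x, gs (S.fg (q \ S.sts A) w (toR y)) (toR x - 0) * ind (x ∈ Y))
    (hb : nest (S.fg (q \ S.sts A) w (toR y)) D (fun x => ind (¬ UF (nar (blow S 0) 3) (q4 S q w)
      (a4 A) (4 * K) (toR (asm S (q \ S.sts A) w y x)))) ≤ β ^ 4 / 512 *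
        (vol (S.fg (q \ S.sts A) w (toR y)) ^ 2 *
          vol ((D : ℝ) • S.fg (q \ S.sts A) w (toR y)) ^ 2)) :
    ∃ n : ℕ, 1 ≤ n ∧ n ≤ M ∧ NF S q (insert w A) (fun z => n * lab S w Φ z)
      (2 * M * K + 32 * D * (M : ℝ) ^ 3 * K) (toR y) ∧
      ∀ ρ : ℝ, (∀ x ∈ Y, √(qq (S.fg (q \ S.sts A) w (toR y)) (toR x)) ≤ ρ) →
        NF S (q \ S.st w) A (fun z => n * Φ (mix (S.st w) 0 z))
          (M * K + 32 * D * (M : ℝ) ^ 3 * K * ρ) (toR y) := by
  classical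
  have hH := h.fg_pos (q \ S.sts A) w (toR y)
  have hD' : (1 : ℝ) ≤ D := by exact_mod_cast hD1
  have hM1 : (1 : ℝ) ≤ M := by
    rcases Nat.eq_zero_or_pos M with rfl | h0
    · simp at hM; linarith
    · exact_mod_cast h0
  have hW1 : (D : ℝ) ≤ W := by nlinarith [mul_le_mul hM1 hM1 zero_le_one (by linarith)]
  have hW2 : (D : ℝ) ≤ W ^ 2 := by nlinarith
  have f1 := (th_inv_smul hH one_pos (hD'.trans hW2)).trans hf
  have f2 := (th_inv_smul hH (by linarith) hW2).trans hf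
  rw [one_smul] at f1
  obtain ⟨t, a, b, h1, h2, h3⟩ := quad_popular hH (lam := D) (β := β) (η := β ^ 4 / 512)
    (by linarith) (by
      rw [Fintype.card_coe]
      exact_mod_cast (card_le_card (inter_subset_left.trans sdiff_subset)).trans hD) hβ
    (by linarith) (by linarith) 0 Y (hm.trans_eq (tsum_congr fun x => by
      by_cases hx : x ∈ Y
      · rw [Set.indicator_of_mem hx, ind_pos hx, mul_one]
      · rw [Set.indicator_of_notMem hx, ind_neg hx, mul_zero]))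
    (fun a b c d => ¬ UF (nar (blow S 0) 3) (q4 S q w) (a4 A) (4 * K)
      (toR (asm S (q \ S.sts A) w y ![a, b, c, d]))) le_rfl (le_of_eq_of_le (by
        unfold nest ind; congr!) hb)
  have hη : ∀ x, ∃ η, x ∈ Y → Fm S (q ∩ S.sts A) A η ∧ IntV η ∧
      ∀ z, Bal S q (q ∩ S.sts A) (put _ (toR x) (toR y)) z → |Φ z - η z| ≤ K := fun x => by
    by_cases hx : x ∈ Y
    · obtain ⟨η, h4⟩ := hY x hx
      exact ⟨η, fun _ => by simpa only [toR_put] using h4⟩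
    · exact ⟨fun _ => 0, fun a => absurd a hx⟩
  choose η hη using hη
  set Z := {p | p ∈ Y ∧ p - a + b ∈ Y ∧ ¬ ¬ UF (nar (blow S 0) 3) (q4 S q w) (a4 A) (4 * K)
      (toR (asm S (q \ S.sts A) w y ![p - a, t, a, b]))} with hZ
  have key : ∀ p ∈ Z, lab S w (η p) = lab S w (η (t + a)) ∧
      Fm S (q ∩ S.sts A) (insert w A) (lab S w (η (t + a))) := fun p hp => by
    refine lab_quad h hc hq hw hΦw (toR y)
      (fun c => toR ((![p - a, t, a, b] : Fin 4 → _) c)) (fun c j hj => ?_) (not_not.1 hp.2.2)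
      (b := η (p - a + b)) (d := η (t + b)) ?_ ?_ ?_ ?_
    · rw [toR_apply, asm_cq w y _ c hj, ← toR_put]; rfl
    · simpa only [cons_val_zero, Matrix.cons_val, ← toR_add, sub_add_cancel] using hη p hp.1
    · simpa only [cons_val_zero, Matrix.cons_val, ← toR_add] using hη _ hp.2.1
    · simpa only [cons_val_one, cons_val_zero, Matrix.cons_val, ← toR_add] using hη _ h1
    · simpa only [cons_val_one, cons_val_zero, Matrix.cons_val, ← toR_add] using hη _ h2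
  have hne : Z.Nonempty := by
    by_contra h0
    rw [Set.not_nonempty_iff_eq_empty.1 h0] at h3
    simp only [Set.indicator_empty, tsum_zero] at h3
    exact absurd h3 (not_le.2 (mul_pos (by positivity) (vol_pos hH)))
  obtain ⟨p0, hp0⟩ := hne
  obtain ⟨n, a1, a2, a3, a4⟩ := step_aff h hc hq (fm_lab hΦ hΦw) (fm_kill w hΦ) y (key p0 hp0).2
    ((hη _ h1).2.1.sub (intV_cut _ (hη _ h1).2.1)) hK Z
    (fun p hp => ⟨_, fm_cut w (hη p hp.1).1, intV_cut _ (hη p hp.1).2.1, fun z hz => by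
      rw [← (key p hp).1]
      refine le_of_eq_of_le (congrArg _ ?_)
        ((hη p hp.1).2.2 z (by simpa only [toR_put] using hz))
      simp only [lab]; ring⟩)
    D M hD hD1 (by positivity) hM hW hf hU _ h3
  exact ⟨n, a1, a2, a3, fun ρ hρ => a4 ρ p0 hp0 (hρ p0 hp0.1)⟩

theorem fib_step (h : S.Ok) (hc : S.Cen) {q : Finset ι} (hq : Cls S q) {A : Finset V} {w : V}
    (hw : w ∉ A) {Φ : (ι → ℝ) → ℝ} (hΦ : Fm S q (insert w A) Φ) (y : ι → ℤ) {K : ℝ} (hK : 0 ≤ K)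
    (D M : ℕ) (hD : q.card ≤ D) (hD1 : 1 ≤ D) {β W : ℝ} (hβ : 0 < β)
    (hM : 5 ≤ M * (β ^ 4 / 8192) ^ 2) (hW : 64 * (D : ℝ) ^ 2 * (M : ℝ) ^ 2 ≤ W)
    (hf : th (W ^ 2 • S.fg (q \ S.sts A) w (toR y))⁻¹ 0 ≤ 3 / 2)
    (hU : UF S (q \ S.st w) A ((M : ℝ) ^ 3 * (6 * K)) (toR y))
    (hm : β * vol (S.fg (q \ S.sts A) w (toR y)) ≤
      ∑' x, gs (S.fg (q \ S.sts A) w (toR y)) (toR x - 0) *
        ind (NF S q A Φ K (toR (put _ x y))))
    (hb : nest (S.fg (q \ S.sts A) w (toR y)) D (fun x => ind (¬ UF (nar (blow S 0) 3) (q4 S q w)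
      (a4 A) (4 * K) (toR (asm S (q \ S.sts A) w y x)))) ≤ β ^ 4 / 512 *
        (vol (S.fg (q \ S.sts A) w (toR y)) ^ 2 *
          vol ((D : ℝ) • S.fg (q \ S.sts A) w (toR y)) ^ 2)) :
    ∃ n : ℕ, 1 ≤ n ∧ n ≤ M ∧ NF S q (insert w A) (fun z => n * Φ z)
      (2 * M * K + 32 * D * (M : ℝ) ^ 3 * K) (toR y) := by
  have hl := hΦ.lin w (mem_insert_self _ _)
  obtain ⟨n, a1, a2, a3, -⟩ := fib_aff h hc hq hw (hΦ.mono le_rfl (subset_insert _ _)) hl.aff y hK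
    D M hD hD1 hβ hM hW hf hU {x | NF S q A Φ K (toR (put _ x y))} (fun _ a => a) hm hb
  exact ⟨n, a1, a2, by simpa only [lab, hl.zero, sub_zero] using a3⟩

theorem pigeon {Ω : Type*} {w : Ω → ℝ} (hw : Wt w) {M : ℕ} (hM : 1 ≤ M) {p : ℕ → Ω → Prop} {c : ℝ}
    (h : c ≤ ∑' y, w y * ind (∃ n, 1 ≤ n ∧ n ≤ M ∧ p n y)) :
    ∃ n, 1 ≤ n ∧ n ≤ M ∧ c / M ≤ ∑' y, w y * ind (p n y) := by
  have h1 : c ≤ ∑ n ∈ Icc 1 M, ∑' y, w y * ind (p n y) := by
    rw [← Summable.tsum_finsetSum fun n _ => hw.summ fun y => abs_ind _]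
    refine h.trans (Summable.tsum_le_tsum (fun y => ?_) (hw.summ fun y => abs_ind _)
      (summable_sum fun n _ => hw.summ fun y => abs_ind _))
    rw [← mul_sum]
    refine mul_le_mul_of_nonneg_left ?_ (hw.1 y)
    by_cases e : ∃ n, 1 ≤ n ∧ n ≤ M ∧ p n y
    · obtain ⟨n, h2, h3, h4⟩ := e
      refine (ind_le _).trans (le_trans (ind_pos h4).ge ?_)
      exact single_le_sum (f := fun n => ind (p n y)) (fun _ _ => ind_nonneg _)
        (mem_Icc.2 ⟨h2, h3⟩)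
    · rw [ind_neg e]; exact sum_nonneg fun _ _ => ind_nonneg _
  have hM0 : (0 : ℝ) < M := by exact_mod_cast hM
  obtain ⟨n, hn, h2⟩ := exists_le_of_sum_le (s := Icc 1 M) (f := fun _ => c / M)
    (nonempty_Icc.2 hM) (le_of_eq_of_le (by
      rw [sum_const, Nat.card_Icc, add_tsub_cancel_right, nsmul_eq_mul]; field_simp) h1)
  exact ⟨n, (mem_Icc.1 hn).1, (mem_Icc.1 hn).2, h2⟩

theorem mass_q4 (h : S.Ok) (hc : S.Cen) {q : Finset ι} (hq : Cls S q) (w : V) {W η : ℝ}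
    (hW : W ≠ 0) (hs : Smo S q 4 W η) : (nar (blow S 0) W).mass (q4 S q w) ≤ 1 + η := by
  refine le_trans (Cls.mass_mono (ok_nar (ok_blow h 0) hW) (cen_nar (cen_blow hc 0) W)
    ((hq.vld 0).nar W) ((cls_q4 hq w).nar W) fun i hi => ?_) (hs (Fin 4) 0 (by simp))
  obtain ⟨c, j, hj, rfl⟩ := mem_q4.1 hi
  exact mem_vld.2 hj

/-- most parallelograms are generic -/
theorem bad_sum (h : S.Ok) (hc : S.Cen) {q : Finset ι} (hq : Cls S q) {A : Finset V}
    (hA : A.Nonempty) {w : V} (hw : w ∉ A) {K W η : ℝ} (hK : 0 ≤ K) {D : ℕ} (hD : q.card ≤ D)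
    (hD1 : 1 ≤ D) (hW : 3 * ((K + 1) * (4 * D + 2 * A.card + 2)) ≤ W) (hs : Smo S q 4 W η) :
    ∃ b ≤ 500 * 7 ^ A.card * η * vl S.G ((q \ S.sts A) \ S.st w),
      HasSum (fun y => S.wt ((q \ S.sts A) \ S.st w) y *
        (nest (S.fg (q \ S.sts A) w (toR y)) D (fun x => ind (¬ UF (nar (blow S 0) 3) (q4 S q w)
          (a4 A) K (toR (asm S (q \ S.sts A) w y x)))) / (vol (S.fg (q \ S.sts A) w (toR y)) ^ 2 *
          vol ((D : ℝ) • S.fg (q \ S.sts A) w (toR y)) ^ 2))) b := by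
  have hD' : (1 : ℝ) ≤ D := by exact_mod_cast hD1
  have hA0 : (0 : ℝ) ≤ A.card := Nat.cast_nonneg _
  have hW1 : 3 * (4 * D + 2 * A.card + 2) ≤ W := by nlinarith
  have hsq : 1 ≤ √(D : ℝ) := Real.one_le_sqrt.2 hD'
  have hsq2 : √(D : ℝ) ≤ W := Real.sqrt_le_iff.2 ⟨by linarith, by nlinarith⟩
  let s : BI S.fc (0 : Fin 4) → ℝ := fun i => if i ∈ (blow S 0).sts (a4 A) then W else
    if (w, 2) ∈ (blow S 0).fc i ∨ (w, 3) ∈ (blow S 0).fc i then √D else 1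
  have s1 : ∀ i j, (blow S 0).fc i = (blow S 0).fc j → s i = s j := fun i j e => by
    simp only [s, MS.mem_sts, e]
  have s2 : ∀ i, 1 ≤ s i := fun i => by simp only [s]; split_ifs <;> linarith
  have s3 : ∀ i, s i ≤ W := fun i => by simp only [s]; split_ifs <;> linarith
  have s4 : ∀ c, ∀ j ∈ (q \ S.sts A) ∩ S.st w, s (cq S w c j) = ![1, 1, √D, √D] c :=
    fun c j hj => by
      have h1 := mem_inter.1 hj
      simp only [s, cq_sts hw, if_neg (mem_sdiff.1 h1.1).2, ← MS.mem_st, cq_st, h1.2, true_and]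
      fin_cases c <;> simp
  have s5 : ∀ j ∈ (q \ S.sts A) \ S.st w, s (cq S w 0 j) = 1 := fun j hj => by
    have h1 := mem_sdiff.1 hj
    simp only [s, cq_sts hw, if_neg (mem_sdiff.1 h1.1).2, ← MS.mem_st, cq_st, h1.2, false_and,
      or_self, if_false]
  have c4 : (a4 A).card = A.card := card_image_of_injective _ fun _ _ e => (Prod.ext_iff.1 e).1
  have c5 : ((q4 S q w).card : ℝ) ≤ 4 * D := by
    have : (q4 S q w).card ≤ 4 * D := (card_biUnion_le_card_mul _ _ D fun c _ =>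
      card_image_le.trans hD).trans (by simp)
    exact_mod_cast this
  have h1 := uf_markov (ok_blow h 0) (cen_blow hc 0) (cls_q4 hq w) (A := a4 A) (hA.image _) s1 s2
    (c := 3) (K := K) (W := W / 3) (W' := W) (η := η) (by norm_num) (by linarith) s3
    (fun i hi => by simp only [s, if_pos hi]; ring) (by
      rw [c4, le_div_iff₀' (by norm_num)]
      exact le_trans (by gcongr) hW) hK (mass_q4 h hc hq w (by linarith) hs)
  rw [q4_sdiff q hw, c4] at h1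
  obtain ⟨b, h2, h3⟩ := four_sum h hc (cls_sdiff_sts hq A) w s1 s2 (lam := D) (by linarith) s4 s5
    (g := fun Y => ind (¬ UF (nar (blow S 0) 3) (q4 S q w) (a4 A) K (toR Y)))
    (fun _ => ind_nonneg _) fun _ => abs_ind _
  have hσ : ∀ c, 0 < (![1, 1, √D, √D] : Fin 4 → ℝ) c := fun c => by
    have : 0 < √(D : ℝ) := by linarith
    fin_cases c <;> simp [this]
  have h4 := (four_split h (q \ S.sts A) w s1 s2 hσ s4 s5).2
  simp only [Fin.prod_univ_four, cons_val_zero, cons_val_one, Matrix.cons_val, one_pow, one_smul,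
    Real.sq_sqrt (show (0 : ℝ) ≤ D by linarith)] at h4
  have p0 := vl_pos h.pd ((q \ S.sts A) \ S.st w)
  have h5 : ∀ y, vol (S.fg (q \ S.sts A) w y) ^ 2 * vol ((D : ℝ) • S.fg (q \ S.sts A) w y) ^ 2 =
      vl (gsc (blow S 0).G s) (q4 S (q \ S.sts A) w) / vl S.G ((q \ S.sts A) \ S.st w) :=
    fun y => by rw [h4 y]; field_simp
  have p1 := vl_pos (ok_gsc (ok_blow h 0) s1 s2).pd (q4 S (q \ S.sts A) w)
  change 0 < vl (gsc _ _) _ at p1
  refine ⟨_, ?_, HasSum.congr_fun (h3.div_const (vl (gsc (blow S 0).G s) (q4 S (q \ S.sts A) w) /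
    vl S.G ((q \ S.sts A) \ S.st w))) fun y => by rw [h5, mul_div_assoc]⟩
  rw [div_le_iff₀ (div_pos p1 p0)]
  refine (h2.trans h1).trans (le_of_eq ?_)
  field_simp

end

end Vale.Agent.P057T1
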