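import Vale.Agent.P057T1.Dv

/-!
Dense vanishing: the Markov selection of good fibres.
-/

set_option linter.unusedSectionVars false

open Matrix Finset
open scoped Real
open Vale.Agent.P267.H775 Vale.Agent.P057G Vale.Agent.P057MA Vale.Agent.P057HU

namespace Vale.Agent.P057T1

noncomputable section

variable {V ι : Type*} [DecidableEq ι] [Fintype ι] [DecidableEq V] {S : MS V ι}

theorem wt_wt (h : S.Ok) (q : Finset ι) : Wt (S.wt q) := ⟨MS.wt_nonneg q, h.summable q⟩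

theorem wt_gsc {s : ι → ℝ} {r : Finset ι} (h : ∀ i ∈ r, s i = 1) :
    (S.gram (gsc S.G s)).wt r = S.wt r ∧ vl (gsc S.G s) r = vl S.G r := by
  have e : blk (gsc S.G s) r = blk S.G r := by rw [blk_gsc S.G h, one_pow, one_smul]
  exact ⟨funext (MS.wt_gram e), by rw [vl, vl, e]⟩

/-- most fibres are fine at the narrow scale -/
theorem fine_sum (h : S.Ok) (hc : S.Cen) {r : Finset ι} (hr : Sat S.G r) (w : V) {W η : ℝ}
    (hW : 1 ≤ W) (hm : (nar S W).mass r ≤ 1 + η) : ∃ b ≤ η * vl S.G (r \ S.st w),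
    HasSum (fun y => S.wt (r \ S.st w) y * (th (W ^ 2 • S.fg r w (toR y))⁻¹ 0 - 1)) b := by
  let s : ι → ℝ := fun i => if w ∈ S.fc i then W else 1
  have s1 : ∀ i j, S.fc i = S.fc j → s i = s j := fun i j e => by simp only [s, e]
  have s2 : ∀ i, 1 ≤ s i := fun i => by simp only [s]; split_ifs <;> linarith
  have s3 : ∀ i, s i ≤ W := fun i => by simp only [s]; split_ifs <;> linarith
  have h' := ok_gsc h s1 s2
  have h1 := h'.hasSum_defect (hc.gram _) r w
  obtain ⟨e1, e2⟩ := wt_gsc (S := S) (s := s) (r := r \ S.st w) fun i hi =>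
    if_neg fun a => (mem_sdiff.1 hi).2 (S.mem_st.2 a)
  have e3 : ∀ y, (S.gram (gsc S.G s)).fg r w y = W ^ 2 • S.fg r w y := fun y => by
    change (blk (S.lm w y) (r ∩ S.st w))ᵀ * blk (gsc S.G s) (r ∩ S.st w) *
      blk (S.lm w y) (r ∩ S.st w) = _
    rw [blk_gsc S.G (c := W) fun i hi => if_pos (S.mem_st.1 (mem_inter.1 hi).2), MS.fg,
      ← Matrix.smul_mul, ← Matrix.mul_smul]
    rfl
  have hs : Sat (gsc S.G s) (r \ S.st w) := fun i j hi hj => by
    simp [gsc, (hr.sdiff h.pd.1 (h.sat_st w)) i j hi hj]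
  refine ⟨_, ?_, HasSum.congr_fun h1 fun y => by rw [← e1, ← e3]; rfl⟩
  change _ * vl (gsc S.G s) (r \ S.st w) ≤ _
  rw [e2]
  refine mul_le_mul_of_nonneg_right ?_ (vl_pos h.pd _).le
  have h2 := h'.one_le_mass (hc.gram _) hs
  have h3 := mass_gsc h hc s1 s2 (by linarith) s3 r
  change _ - (S.gram (gsc S.G s)).mass (r \ S.st w) ≤ η
  linarith

theorem uf_sum (h : S.Ok) (hc : S.Cen) {q : Finset ι} (hq : Cls S q) {A : Finset V}
    (hA : A.Nonempty) {K W η : ℝ} (hW : (K + 1) * (q.card + 2 * A.card + 2) ≤ W) (hK : 0 ≤ K)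
    (hm : (nar S W).mass q ≤ 1 + η) :
    ∑' y, S.wt (q \ S.sts A) y * ind (¬ UF S q A K (toR y)) ≤
      500 * 7 ^ A.card * η * vl S.G (q \ S.sts A) := by
  have a1 : (0 : ℝ) ≤ q.card := Nat.cast_nonneg _
  have a2 : (0 : ℝ) ≤ A.card := Nat.cast_nonneg _
  have hW1 : 1 ≤ W := by nlinarith
  let s : ι → ℝ := fun i => if i ∈ S.sts A then W else 1
  have h1 := uf_markov h hc hq hA (s := s) (fun i j e => by simp only [s, MS.mem_sts, e])
    (fun i => by simp only [s]; split_ifs <;> linarith) (c := 1) one_ne_zero (by linarith : 0 < W)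
    (fun i => by simp only [s]; split_ifs <;> linarith)
    (fun i hi => by simp only [s, if_pos hi, one_mul]) hW hK hm
  obtain ⟨e1, e2⟩ := wt_gsc (S := S) (s := s) (r := q \ S.sts A) fun i hi =>
    if_neg (mem_sdiff.1 hi).2
  rwa [e1, e2, nar_one] at h1

theorem good_num {g m d u b β e : ℝ} (hg : 0 ≤ g) (hd : 0 ≤ d) (hu : 0 ≤ u) (hb : 0 ≤ b)
    (he : 0 < e) (hβ : 0 < β) (hm : m ≤ 1 + d)
    (h : β / 2 ≤ m → d ≤ 1 / 2 → u < 1 → b ≤ e → 1 ≤ g) :
    2 / 3 * (m - β / 2) - (2 * d + u + b / e) ≤ g := by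
  have h0 : 0 ≤ b / e := div_nonneg hb he.le
  by_cases h1 : β / 2 ≤ m
  · by_cases h2 : d ≤ 1 / 2
    · by_cases h3 : u < 1
      · by_cases h4 : b ≤ e
        · linarith [h h1 h2 h3 h4]
        · have : 1 ≤ b / e := (one_le_div he).2 (not_le.1 h4).le
          linarith
      · linarith
    · linarith
  · linarith

variable [Fintype V]

/-- release of one frozen vertex -/
theorem dv_step (h : S.Ok) (hc : S.Cen) {q : Finset ι} (hq : Cls S q) {A : Finset V}
    (hA : A.Nonempty) {w : V} (hw : w ∉ A) {Φ : (ι → ℝ) → ℝ} (hΦ : Fm S q (insert w A) Φ)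
    {K β W η : ℝ} (hK : 0 ≤ K) {D M : ℕ} (hD : q.card ≤ D) (hD1 : 1 ≤ D) (hβ : 0 < β)
    (hβ1 : β ≤ 1) (hM : 5 ≤ M * (β ^ 4 / 2 ^ 17) ^ 2)
    (hW1 : 64 * (D : ℝ) ^ 2 * (M : ℝ) ^ 2 ≤ W)
    (hW2 : 3 * ((4 * K + 1) * (4 * D + 2 * A.card + 2)) ≤ W)
    (hW3 : ((M : ℝ) ^ 3 * (6 * K) + 1) * (D + 2 * A.card + 2) ≤ W) (hη0 : 0 ≤ η)
    (hη : 2 ^ 26 * 7 ^ A.card * η ≤ β ^ 5) (hs : Smo S q 4 W η)
    (hm : β * vl S.G (q \ S.sts A) ≤ ∑' y, S.wt (q \ S.sts A) y * ind (NF S q A Φ K (toR y))) :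
    ∃ n : ℕ, 1 ≤ n ∧ n ≤ M ∧ β / 4 / M * vl S.G (q \ S.sts (insert w A)) ≤
      ∑' y, S.wt (q \ S.sts (insert w A)) y * ind (NF S q (insert w A) (fun z => n * Φ z)
        (2 * M * K + 32 * D * (M : ℝ) ^ 3 * K) (toR y)) := by
  have hD' : (1 : ℝ) ≤ D := by exact_mod_cast hD1
  have hA0 : (0 : ℝ) ≤ A.card := Nat.cast_nonneg _
  have hW0 : 1 ≤ W := by nlinarith
  have hM1 : 1 ≤ M := by
    rcases Nat.eq_zero_or_pos M with rfl | h0
    · simp at hM; linarith
    · exact h0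
  have hr := cls_sdiff_sts hq A
  have hmq := hs.mass h hc hq (by norm_num) (by linarith : W ≠ 0)
  have hn := ok_nar h (by linarith : W ≠ 0)
  have hmono : ∀ {r}, Cls S r → r ⊆ q → (nar S W).mass r ≤ 1 + η := fun hr' e =>
    (Cls.mass_mono hn (cen_nar hc W) (hq.nar W) (hr'.nar W) e).trans hmq
  have eB : q \ S.sts (insert w A) = (q \ S.sts A) \ S.st w := by
    ext i; simp only [MS.sts_insert, mem_sdiff, mem_union]; tauto
  have eB' : (q \ S.st w) \ S.sts A = (q \ S.sts A) \ S.st w := by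
    ext i; simp only [mem_sdiff]; tauto
  obtain ⟨b1, hb1, s1⟩ := fine_sum h hc (hr.sat h) w hW0 (hmono hr sdiff_subset)
  have hb2 := uf_sum h hc (hq.sdiff_st w) hA (K := (M : ℝ) ^ 3 * (6 * K)) (W := W) (η := η)
    (le_trans (by
      have : ((q \ S.st w).card : ℝ) ≤ D := by
        exact_mod_cast (card_le_card sdiff_subset).trans hD
      gcongr) hW3) (by positivity) (hmono (hq.sdiff_st w) sdiff_subset)
  rw [eB'] at hb2
  obtain ⟨b3, hb3, s3⟩ := bad_sum h hc hq hA hw (K := 4 * K) (by positivity) hD hD1 hW2 hs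
  have s0 := h.hasSum_fibre (q \ S.sts A) w (F := fun y => ind (NF S q A Φ K (toR y)))
    (h.summable_re _ fun _ => abs_ind _)
  simp only [hc.fcn] at s0
  have pP := vl_pos h.pd ((q \ S.sts A) ∩ S.st w)
  have pB := vl_pos h.pd ((q \ S.sts A) \ S.st w)
  have hw' := wt_wt h ((q \ S.sts A) \ S.st w)
  have s2 := (hw'.summ (F := fun y => ind (¬ UF S (q \ S.st w) A ((M : ℝ) ^ 3 * (6 * K)) (toR y)))
    fun _ => abs_ind _).hasSum
  have s4 := h.hasSum_wt ((q \ S.sts A) \ S.st w)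
  have hm4 : S.mass ((q \ S.sts A) \ S.st w) ≤ 1 + η := by
    have := mass_nar_mono h hc one_pos hW0 ((q \ S.sts A) \ S.st w)
    rw [nar_one] at this
    exact this.trans (hmono (hr.sdiff_st w) (sdiff_subset.trans sdiff_subset))
  have he : 0 < (β / 2) ^ 4 / 512 := by positivity
  have s5 := (((s0.div_const (vl S.G ((q \ S.sts A) ∩ S.st w))).sub (s4.mul_right (β / 2))).mul_left
    (2 / 3)).sub (((s1.mul_left 2).add s2).add (s3.div_const ((β / 2) ^ 4 / 512)))
  rw [eB, div_mul_eq_mul_div]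
  refine pigeon hw' hM1 (p := fun n y => NF S q (insert w A) (fun z => n * Φ z)
    (2 * M * K + 32 * D * (M : ℝ) ^ 3 * K) (toR y)) (le_trans ?_ (hasSum_le (fun y => ?_) s5
      (hw'.summ fun _ => abs_ind _).hasSum))
  · rw [h.vl_st (q \ S.sts A) w, mul_comm (vl _ _), ← mul_assoc, ← le_div_iff₀ pP] at hm
    have p7 : (1 : ℝ) ≤ 7 ^ A.card := one_le_pow₀ (by norm_num)
    have a1 : b3 / ((β / 2) ^ 4 / 512) ≤ β / 16 * vl S.G ((q \ S.sts A) \ S.st w) := by
      rw [div_le_iff₀ he]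
      refine hb3.trans ?_
      rw [mul_right_comm (β / 16)]
      refine mul_le_mul_of_nonneg_right ?_ pB.le
      nlinarith
    have a2 : β ^ 5 ≤ β := pow_le_of_le_one hβ.le hβ1 (by norm_num)
    have a3 : 7 ^ A.card * η ≤ β / 2 ^ 26 := by rw [le_div_iff₀ (by norm_num)]; linarith
    have a4 : η ≤ β / 2 ^ 26 := le_trans (le_mul_of_one_le_left hη0 p7) a3
    have a5 := mul_le_mul_of_nonneg_right a3 pB.le
    have a6 := mul_le_mul_of_nonneg_right a4 pB.le
    have a7 : S.mass ((q \ S.sts A) \ S.st w) * vl S.G ((q \ S.sts A) \ S.st w) * (β / 2) ≤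
        (1 + 1 / 2 ^ 26) * vl S.G ((q \ S.sts A) \ S.st w) * (β / 2) := by
      gcongr
      linarith
    have a8 := mul_pos hβ pB
    nlinarith
  · have hH := h.fg_pos (q \ S.sts A) w (toR y)
    have pv := vol_pos hH
    have pv2 := vol_pos (hH.smul (by linarith : (0 : ℝ) < D))
    have e : ∀ a m d u b : ℝ, 2 / 3 * (a * m / vl S.G ((q \ S.sts A) ∩ S.st w) - a * (β / 2)) -
        (2 * (a * d) + a * u + a * b / ((β / 2) ^ 4 / 512)) =
        a * (2 / 3 * (m / vl S.G ((q \ S.sts A) ∩ S.st w) - β / 2) -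
          (2 * d + u + b / ((β / 2) ^ 4 / 512))) := fun _ _ _ _ _ => by ring
    rw [e, ← h.vol_fg (q \ S.sts A) w (toR y)]
    refine mul_le_mul_of_nonneg_left (good_num (ind_nonneg _) ?_ (ind_nonneg _) ?_ he hβ ?_
      fun g1 g2 g3 g4 => (ind_pos ?_).ge) (hw'.1 y)
    · linarith [one_le_th_zero (hH.smul (by positivity : 0 < W ^ 2)).inv]
    · refine div_nonneg (tsum_nonneg fun r => mul_nonneg ?_ (tsum_nonneg fun t =>
        mul_nonneg (gs_pos _ _).le (ind_nonneg _))) (by positivity)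
      exact (mul_pos (mul_pos (gs_pos _ _) (gs_pos _ _)) (gs_pos _ _)).le
    · have a1 := th_inv_smul hH one_pos (one_le_pow₀ hW0 (n := 2))
      rw [one_smul] at a1
      rw [div_le_iff₀ pv, add_sub_cancel]
      have a2 := (le_abs_self _).trans ((wt_gs hH 0).abs_le
        (F := fun x => ind (NF S q A Φ K (toR (put _ x y)))) fun _ => abs_ind _)
      rw [mul_one] at a2
      refine a2.trans (le_of_eq_of_le (th_zero_eq hH) ?_)
      rw [mul_comm]
      exact mul_le_mul_of_nonneg_right a1 pv.le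
    · refine fib_step h hc hq hw hΦ y hK D M hD hD1 (β := β / 2) (by positivity)
        (hM.trans_eq (by ring)) hW1 (by linarith) (by
          by_contra a; rw [ind_pos a] at g3; exact lt_irrefl _ g3)
        ((le_div_iff₀ pv).1 g1) ((div_le_iff₀ (by positivity)).1 g4)

end

end Vale.Agent.P057T1
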