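import Vale.Agent.P057T1.Frz

/-!
The law of four frozen copies of a vertex; most parallelograms are generic.
-/

set_option linter.unusedSectionVars false

open Matrix Finset
open scoped Real
open Vale.Agent.P267.H775 Vale.Agent.P057G Vale.Agent.P057MA Vale.Agent.P057HU

namespace Vale.Agent.P057T1

noncomputable section

section split

variable {V ι : Type*} [DecidableEq ι] [Fintype ι] [DecidableEq V] {S : MS V ι}

theorem split_sts (h : S.Ok) (q : Finset ι) (s : Finset V)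
    (hs : ∀ i ∈ q, ∀ v ∈ s, ∀ u ∈ s, v ∈ S.fc i → u ∈ S.fc i → v = u) :
    (∀ z, ln2 S q z = ln2 S (q \ S.sts s) z + ∑ v ∈ s, ln2 S (q ∩ S.st v) z) ∧
      vl S.G q = vl S.G (q \ S.sts s) * ∏ v ∈ s, vl S.G (q ∩ S.st v) := by
  induction s using Finset.induction_on with
  | empty => simp [MS.sts_empty]
  | insert v s hv ih =>
    obtain ⟨h1, h2⟩ := ih fun i hi a ha b hb =>
      hs i hi a (mem_insert_of_mem ha) b (mem_insert_of_mem hb)
    have e1 : (q \ S.sts s) ∩ S.st v = q ∩ S.st v := by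
      ext i
      simp only [mem_inter, mem_sdiff, MS.mem_sts, MS.mem_st]
      refine ⟨fun a => ⟨a.1.1, a.2⟩, fun a => ⟨⟨a.1, ?_⟩, a.2⟩⟩
      rintro ⟨u, h3, h4⟩
      exact hv (hs i a.1 v (mem_insert_self _ _) u (mem_insert_of_mem h3) a.2 h4 ▸ h3)
    have e2 : (q \ S.sts s) \ S.st v = q \ S.sts (insert v s) := by
      ext i; simp only [MS.sts_insert, mem_sdiff, mem_union]; tauto
    constructor
    · intro z
      rw [h1, ln2_split h (h.sat_st v) (q \ S.sts s), e1, e2, sum_insert hv]; ring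
    · rw [h2, h.vl_st (q \ S.sts s) v, e1, e2, prod_insert hv]; ring

theorem ln2_gsc {s : ι → ℝ} {r : Finset ι} {c : ℝ} (h : ∀ i ∈ r, s i = c) (z : ι → ℝ) :
    ln2 (S.gram (gsc S.G s)) r z = c ^ 2 * ln2 S r z := by
  change qq (gsc S.G s) _ = _
  rw [qq_msk, blk_gsc S.G h, ← qq_msk, qq_smul_mat]; rfl

theorem vl_gsc (G : Matrix ι ι ℝ) {s : ι → ℝ} {r : Finset ι} {c : ℝ} (hc : 0 < c)
    (h : ∀ i ∈ r, s i = c) : vl (gsc G s) r = (√(c ^ 2))⁻¹ ^ r.card * vl G r := by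
  rw [← vl_smul (by positivity), vl, vl, blk_gsc G h]

end split

variable {V ι : Type*} [DecidableEq ι] [Fintype ι] [DecidableEq V] [Fintype V] {S : MS V ι}

/-- the frozen point of the four copies -/
def asm (S : MS V ι) (r : Finset ι) (w : V) (y : ι → ℤ) (x : Fin 4 → ↥(r ∩ S.st w) → ℤ) :
    BI S.fc (0 : Fin 4) → ℤ :=
  fun i => if i ∈ q4 S r w then put (r ∩ S.st w) (x (i.1.2 w)) y i.1.1 else 0

theorem cq_w {w : V} {j : ι} (hj : j ∈ S.st w) (c : Fin 4) : (cq S w c j).1.2 w = c := by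
  rw [cp_snd _ (S.mem_st.1 hj)]; simp [ch]

theorem asm_cq {r : Finset ι} (w : V) (y : ι → ℤ) (x : Fin 4 → ↥(r ∩ S.st w) → ℤ) (c : Fin 4)
    {j : ι} (hj : j ∈ r) : asm S r w y x (cq S w c j) = put (r ∩ S.st w) (x c) y j := by
  rw [asm, if_pos (cq_mem hj c)]
  change put (r ∩ S.st w) (x ((cq S w c j).1.2 w)) y j = _
  by_cases h : j ∈ S.st w
  · rw [cq_w h]
  · rw [put_neg _ _ fun a => h (mem_inter.1 a).2, put_neg _ _ fun a => h (mem_inter.1 a).2]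

theorem cq_st {w : V} (c c' : Fin 4) (j : ι) :
    cq S w c j ∈ (blow S 0).st (w, c') ↔ j ∈ S.st w ∧ c = c' := by
  rw [MS.mem_st, mem_fc_blow, MS.mem_st]
  exact ⟨fun a => ⟨a.1, (cq_w (S.mem_st.2 a.1) c).symm.trans a.2⟩,
    fun a => ⟨a.1, (cq_w (S.mem_st.2 a.1) c).trans a.2⟩⟩

theorem mem_q4 {r : Finset ι} {w : V} {i : BI S.fc (0 : Fin 4)} :
    i ∈ q4 S r w ↔ ∃ c, ∃ j ∈ r, cq S w c j = i := by simp [q4]

theorem q4_st (r : Finset ι) (w : V) (c : Fin 4) :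
    q4 S r w ∩ (blow S 0).st (w, c) = (r ∩ S.st w).image (cq S w c) := by
  ext i
  rw [mem_inter, mem_q4, mem_image]
  constructor
  · rintro ⟨⟨c', j, hj, rfl⟩, h⟩
    obtain ⟨h1, rfl⟩ := (cq_st c' c j).1 h
    exact ⟨j, mem_inter.2 ⟨hj, h1⟩, rfl⟩
  · rintro ⟨j, hj, rfl⟩
    exact ⟨⟨c, j, (mem_inter.1 hj).1, rfl⟩, (cq_st c c j).2 ⟨(mem_inter.1 hj).2, rfl⟩⟩

theorem q4_out (r : Finset ι) (w : V) :
    q4 S r w \ (blow S 0).sts (univ.image fun c : Fin 4 => (w, c)) =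
      (r \ S.st w).image (cq S w 0) := by
  have key : ∀ c j, cq S w c j ∈ (blow S 0).sts (univ.image fun c : Fin 4 => (w, c)) ↔
      j ∈ S.st w := fun c j => by
    rw [MS.mem_sts]
    constructor
    · rintro ⟨u, h1, h2⟩
      obtain ⟨c', -, rfl⟩ := mem_image.1 h1
      exact ((cq_st c c' j).1 ((blow S 0).mem_st.2 h2)).1
    · exact fun a => ⟨(w, c), mem_image_of_mem _ (mem_univ c),
        (blow S 0).mem_st.1 ((cq_st c c j).2 ⟨a, rfl⟩)⟩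
  ext i
  rw [mem_sdiff, mem_q4, mem_image]
  constructor
  · rintro ⟨⟨c, j, hj, rfl⟩, h⟩
    rw [key] at h
    exact ⟨j, mem_sdiff.2 ⟨hj, h⟩, cq_out h _ _⟩
  · rintro ⟨j, hj, rfl⟩
    exact ⟨⟨0, j, (mem_sdiff.1 hj).1, rfl⟩, by rw [key]; exact (mem_sdiff.1 hj).2⟩

theorem q4_sdiff (q : Finset ι) {A : Finset V} {w : V} (hw : w ∉ A) :
    q4 S q w \ (blow S 0).sts (a4 A) = q4 S (q \ S.sts A) w := by
  ext i
  rw [mem_sdiff, mem_q4, mem_q4]
  constructor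
  · rintro ⟨⟨c, j, hj, rfl⟩, h⟩
    exact ⟨c, j, mem_sdiff.2 ⟨hj, by rwa [cq_sts hw] at h⟩, rfl⟩
  · rintro ⟨c, j, hj, rfl⟩
    exact ⟨⟨c, j, (mem_sdiff.1 hj).1, rfl⟩, by rw [cq_sts hw]; exact (mem_sdiff.1 hj).2⟩

theorem four_split (h : S.Ok) (r : Finset ι) (w : V) {s : BI S.fc (0 : Fin 4) → ℝ}
    (hs : ∀ i j, (blow S 0).fc i = (blow S 0).fc j → s i = s j) (h1 : ∀ i, 1 ≤ s i)
    {σ : Fin 4 → ℝ} (hσ : ∀ c, 0 < σ c) (h2 : ∀ c, ∀ j ∈ r ∩ S.st w, s (cq S w c j) = σ c)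
    (h3 : ∀ j ∈ r \ S.st w, s (cq S w 0 j) = 1) :
    (∀ Z, ln2 ((blow S 0).gram (gsc (blow S 0).G s)) (q4 S r w) Z =
      ln2 S (r \ S.st w) (Z ∘ cq S w 0) + ∑ c, σ c ^ 2 * ln2 S (r ∩ S.st w) (Z ∘ cq S w c)) ∧
    ∀ y, vl (gsc (blow S 0).G s) (q4 S r w) =
      vl S.G (r \ S.st w) * ∏ c, vol (σ c ^ 2 • S.fg r w y) := by
  have hb := ok_blow h (0 : Fin 4)
  obtain ⟨e1, e2⟩ := split_sts (ok_gsc hb hs h1) (q4 S r w) (univ.image fun c : Fin 4 => (w, c))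
    fun i _ a ha b hb h4 h5 => by
      obtain ⟨c, -, rfl⟩ := mem_image.1 ha
      obtain ⟨c', -, rfl⟩ := mem_image.1 hb
      exact congrArg (Prod.mk w) ((mem_fc_blow.1 h4).2.symm.trans (mem_fc_blow.1 h5).2)
  have inj : ∀ a ∈ (univ : Finset (Fin 4)), ∀ b ∈ (univ : Finset (Fin 4)),
      (w, a) = (w, b) → a = b := fun _ _ _ _ e => (Prod.ext_iff.1 e).2
  have k1 : ∀ c, ∀ i ∈ (r ∩ S.st w).image (cq S w c), s i = σ c := fun c i hi => by
    obtain ⟨j, hj, rfl⟩ := mem_image.1 hi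
    exact h2 c j hj
  have k2 : ∀ i ∈ (r \ S.st w).image (cq S w 0), s i = 1 := fun i hi => by
    obtain ⟨j, hj, rfl⟩ := mem_image.1 hi
    exact h3 j hj
  have k3 : ∀ c t Z, ln2 (blow S 0) (t.image (cq S w c)) Z = ln2 S t (Z ∘ cq S w c) :=
    fun c t Z => ln2_image (S' := blow S 0) (cp_inj _ _ _) (fun i _ j _ => G_cp h _ i j)
      (fun z i _ => p_cp h _ z i) Z
  constructor
  · intro Z
    rw [e1, sum_image inj]
    change ln2 _ (q4 S r w \ (blow S 0).sts _) Z + ∑ c, ln2 _ (q4 S r w ∩ (blow S 0).st _) Z = _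
    simp only [q4_out, q4_st, ln2_gsc k2, ln2_gsc (k1 _), k3, one_pow, one_mul]
  · intro y
    refine e2.trans ?_
    rw [prod_image inj]
    change vl (gsc _ _) (q4 S r w \ (blow S 0).sts _) *
      ∏ c, vl (gsc _ _) (q4 S r w ∩ (blow S 0).st _) = _
    rw [q4_out, vl_gsc _ one_pos k2, vl_cp h]
    simp only [one_pow, Real.sqrt_one, inv_one, one_mul]
    congr 1
    refine prod_congr rfl fun c _ => ?_
    rw [q4_st, vl_gsc _ (hσ c) (k1 c), vl_cp h, vol_smul (pow_pos (hσ c) 2), h.vol_fg,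
      card_image_of_injective _ (cp_inj _ _ _), Fintype.card_coe]

theorem wt_asm (h : S.Ok) (hc : S.Cen) {r : Finset ι} (hr : Cls S r) (w : V)
    {s : BI S.fc (0 : Fin 4) → ℝ}
    (hs : ∀ i j, (blow S 0).fc i = (blow S 0).fc j → s i = s j) (h1 : ∀ i, 1 ≤ s i)
    {σ : Fin 4 → ℝ} (hσ : ∀ c, 0 < σ c) (h2 : ∀ c, ∀ j ∈ r ∩ S.st w, s (cq S w c j) = σ c)
    (h3 : ∀ j ∈ r \ S.st w, s (cq S w 0 j) = 1) {y : ι → ℤ} (hy : ∀ i, i ∉ r \ S.st w → y i = 0)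
    (x : Fin 4 → ↥(r ∩ S.st w) → ℤ) :
    ((blow S 0).gram (gsc (blow S 0).G s)).wt (q4 S r w) (asm S r w y x) =
      S.wt (r \ S.st w) y * ∏ c, gs (σ c ^ 2 • S.fg r w (toR y)) (toR (x c)) := by
  have e : ∀ c, ∀ j ∈ r \ S.st w, (toR (asm S r w y x) ∘ cq S w c) j = toR y j := fun c j hj => by
    rw [Function.comp, toR_apply, asm_cq w y x c (mem_sdiff.1 hj).1,
      put_neg _ _ fun a => (mem_sdiff.1 hj).2 (mem_inter.1 a).2]; rfl
  have e0 : ∀ i ∉ q4 S r w, asm S r w y x i = 0 := fun i hi => if_neg hi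
  rw [wt_eq, wt_eq, if_pos e0, if_pos hy, (four_split h r w hs h1 hσ h2 h3).1]
  simp only [gs, ← Real.exp_sum, ← Real.exp_add]
  congr 1
  rw [ln2_congr (z' := toR y) fun j hj => by
    rw [e 0 j hj, cls_p h (hr.sdiff_st w) (e 0) hj], mul_add, neg_add, mul_sum, ← sum_neg_distrib]
  congr 1
  refine sum_congr rfl fun c _ => ?_
  rw [ln2_fg h hc hr w (toR y) _ (e c), qq_smul_mat]
  congr 4; funext j
  rw [Function.comp, toR_apply, asm_cq w y x c (mem_inter.1 j.2).1, put_coe]; rfl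

/-- the nested sum over four copies -/
def nest {P : Type*} [Fintype P] (H : Matrix P P ℝ) (lam : ℝ)
    (g : (Fin 4 → P → ℤ) → ℝ) : ℝ :=
  ∑' r : ((P → ℤ) × (P → ℤ)) × (P → ℤ), gs (lam • H) (toR r.1.1) * gs (lam • H) (toR r.1.2) *
    gs H (toR r.2 - 0) * ∑' t, gs H (toR t - 0) * g ![t, r.2, r.1.1, r.1.2]

theorem four_sum (h : S.Ok) (hc : S.Cen) {r : Finset ι} (hr : Cls S r) (w : V)
    {s : BI S.fc (0 : Fin 4) → ℝ}
    (hs : ∀ i j, (blow S 0).fc i = (blow S 0).fc j → s i = s j) (h1 : ∀ i, 1 ≤ s i)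
    {lam : ℝ} (hl : 0 < lam)
    (h2 : ∀ c, ∀ j ∈ r ∩ S.st w, s (cq S w c j) = ![1, 1, √lam, √lam] c)
    (h3 : ∀ j ∈ r \ S.st w, s (cq S w 0 j) = 1) {g : (BI S.fc (0 : Fin 4) → ℤ) → ℝ}
    (g0 : ∀ Y, 0 ≤ g Y) (g1 : ∀ Y, |g Y| ≤ 1) :
    ∃ b ≤ ∑' Y, ((blow S 0).gram (gsc (blow S 0).G s)).wt (q4 S r w) Y * g Y,
      HasSum (fun y => S.wt (r \ S.st w) y *
        nest (S.fg r w (toR y)) lam fun x => g (asm S r w y x)) b := by
  have hσ : ∀ c, 0 < (![1, 1, √lam, √lam] : Fin 4 → ℝ) c := fun c => by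
    have := Real.sqrt_pos.2 hl
    fin_cases c <;> simp [this]
  have hb := ok_gsc (ok_blow h (0 : Fin 4)) hs h1
  let P := ↥(r ∩ S.st w) → ℤ
  let Ω := {y : ι → ℤ // ∀ i, i ∉ r \ S.st w → y i = 0}
  let e : Ω × (((P × P) × P) × P) → BI S.fc (0 : Fin 4) → ℤ :=
    fun a => asm S r w a.1.1 ![a.2.2, a.2.1.2, a.2.1.1.1, a.2.1.1.2]
  have he : Function.Injective e := by
    rintro ⟨y, ⟨⟨a, b⟩, c⟩, d⟩ ⟨y', ⟨⟨a', b'⟩, c'⟩, d'⟩ h4
    have h5 : ∀ k, ∀ j ∈ r, put (r ∩ S.st w) ((![d, c, a, b] : Fin 4 → P) k) y.1 j =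
        put (r ∩ S.st w) ((![d', c', a', b'] : Fin 4 → P) k) y'.1 j := fun k j hj => by
      rw [← asm_cq w _ _ k hj, ← asm_cq w _ _ k hj]; exact congrFun h4 _
    have h6 : ∀ k, (![d, c, a, b] : Fin 4 → P) k = (![d', c', a', b'] : Fin 4 → P) k :=
      fun k => funext fun j => by simpa only [put_coe] using h5 k j (mem_inter.1 j.2).1
    have h7 : y = y' := Subtype.ext (funext fun j => by
      by_cases hj : j ∈ r \ S.st w
      · have h8 : j ∉ r ∩ S.st w := fun a => (mem_sdiff.1 hj).2 (mem_inter.1 a).2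
        simpa only [put_neg _ _ h8] using h5 0 j (mem_sdiff.1 hj).1
      · rw [y.2 j hj, y'.2 j hj])
    have a0 : d = d' := h6 0
    have a1 : c = c' := h6 1
    have a2 : a = a' := h6 2
    have a3 : b = b' := h6 3
    rw [h7, a0, a1, a2, a3]
  have hsum := hb.summable_re (q4 S r w) g1
  have hs2 := hsum.comp_injective he
  refine ⟨_, Summable.tsum_le_tsum_of_inj e he (fun Y _ => mul_nonneg (MS.wt_nonneg _ _) (g0 Y))
    (fun _ => le_rfl) hs2 hsum, ?_⟩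
  have h4 := hs2.hasSum.prod_fiberwise fun y => (hs2.prod_factor y).hasSum
  rw [← (Subtype.val_injective (p := fun y : ι → ℤ =>
    ∀ i, i ∉ r \ S.st w → y i = 0)).hasSum_iff fun y hy => by
      have : ¬ ∀ i, i ∉ r \ S.st w → y i = 0 := fun a => hy ⟨⟨y, a⟩, rfl⟩
      rw [wt_eq, if_neg this, zero_mul]]
  refine HasSum.congr_fun h4 fun y => ?_
  have hH := h.fg_pos r w (toR y.1)
  have hL : (lam • S.fg r w (toR y.1)).PosDef := hH.smul hl
  have h5 := (((wt_gs0 hL).prod (wt_gs0 hL)).prod (wt_gs hH 0)).fub (wt_gs hH 0)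
    (F := fun p => g (asm S r w y.1 ![p.2, p.1.2, p.1.1.1, p.1.1.2])) fun _ => g1 _
  rw [Function.comp, nest, ← h5, ← tsum_mul_left]
  refine tsum_congr fun p => ?_
  simp only [Function.comp, e]
  rw [wt_asm h hc hr w hs h1 hσ h2 h3 y.2, Fin.prod_univ_four]
  simp only [cons_val_zero, cons_val_one, Matrix.cons_val, one_pow, one_smul,
    Real.sq_sqrt hl.le, sub_zero]
  ring

end

end Vale.Agent.P057T1
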