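import Vale.Agent.P057T1.Step
import Vale.Agent.P057MA.Blow

/-!
Four copies of a vertex: the integer labels along a parallelogram.
-/

set_option linter.unusedSectionVars false

open Matrix Finset
open scoped Real
open Vale.Agent.P267.H775 Vale.Agent.P057G Vale.Agent.P057MA Vale.Agent.P057HU

namespace Vale.Agent.P057T1

noncomputable section

variable {V ι : Type*} [DecidableEq ι] [Fintype ι] [DecidableEq V] {S : MS V ι}

theorem ln2_mono (h : S.Ok) {r s : Finset ι} (hr : Sat S.G r) (hs : r ⊆ s) (z : ι → ℝ) :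
    ln2 S r z ≤ ln2 S s z := by
  rw [ln2_split h hr s, inter_eq_right.2 hs]
  exact le_add_of_nonneg_right (ln2_nonneg h z)

omit [DecidableEq ι] [DecidableEq V] in
theorem qq_add_le {G : Matrix ι ι ℝ} (hG : G.PosSemidef) (u v : ι → ℝ) :
    qq G (u + v) ≤ 2 * qq G u + 2 * qq G v := by
  have h1 := qq_add hG.1 u v
  have h2 := qq_sub hG.1 u v
  have h3 := qq_nonneg hG (u - v)
  linarith

/-- the part of a form that sees the star of `w` -/
def lab (S : MS V ι) (w : V) (η : (ι → ℝ) → ℝ) (z : ι → ℝ) : ℝ := η z - η (mix (S.st w) 0 z)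

theorem fm_cut {q : Finset ι} {A : Finset V} (w : V) {η : (ι → ℝ) → ℝ}
    (h : Fm S (q ∩ S.sts A) A η) :
    Fm S ((q \ S.st w) ∩ S.sts A) A fun z => η (mix (S.st w) 0 z) := by
  refine ⟨fun z z' e => h.on _ _ fun j hj => ?_,
    fun v hv => lin_comp (h.lin v hv) ((RMap.zero _).mix _ (RMap.id _))⟩
  by_cases h1 : j ∈ S.st w
  · rw [mix_pos _ _ h1, mix_pos _ _ h1]
  · rw [mix_neg _ _ h1, mix_neg _ _ h1]
    exact e j (mem_inter.2 ⟨mem_sdiff.2 ⟨(mem_inter.1 hj).1, h1⟩, (mem_inter.1 hj).2⟩)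

omit [Fintype ι] [DecidableEq V] in
theorem intV_cut (r : Finset ι) {η : (ι → ℝ) → ℝ} (h : IntV η) : IntV fun z => η (mix r 0 z) :=
  fun z => by
    obtain ⟨n, hn⟩ := h (mix r 0 z)
    refine ⟨n, ?_⟩
    rw [← hn, toR_mix, toR_zero]

/-- consequences of the parallelogram identity -/
theorem lab_of_id {q : Finset ι} {A : Finset V} {w : V} {a b c d : (ι → ℝ) → ℝ}
    (hc : Fm S (q ∩ S.sts A) A c)
    (e : ∀ (y : ι → ℝ) (t : Fin 4 → ι → ℝ), a (mix (S.st w) (t 0 + t 2) y) -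
      b (mix (S.st w) (t 0 + t 3) y) - c (mix (S.st w) (t 1 + t 2) y) +
      d (mix (S.st w) (t 1 + t 3) y) = 0) :
    lab S w a = lab S w c ∧ Fm S (q ∩ S.sts A) (insert w A) (lab S w c) := by
  have hmm : ∀ x y : ι → ℝ, mix (S.st w) 0 (mix (S.st w) x y) = mix (S.st w) 0 y := fun x y => by
    funext j; simp only [mix]; split_ifs <;> rfl
  have e0 : ∀ y x x' : ι → ℝ, c (mix (S.st w) (x + x') y) =
      a (mix (S.st w) x' y) - b (mix (S.st w) 0 y) + d (mix (S.st w) x y) := fun y x x' => by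
    have := e y ![0, x, x', 0]
    simp only [cons_val_zero, cons_val_one, Matrix.cons_val, zero_add, add_zero] at this
    linarith
  have hf : Fm S (q ∩ S.sts A) A (lab S w c) :=
    hc.sub ((fm_cut w hc).mono (inter_subset_inter_right sdiff_subset) le_rfl)
  refine ⟨funext fun z => ?_, hf.on, fun v hv => ?_⟩
  · have h1 := e0 z 0 z
    have h2 := e0 z 0 0
    rw [zero_add, mix_self] at h1
    rw [zero_add] at h2
    simp only [lab]; linarith
  rcases mem_insert.1 hv with rfl | hv'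
  swap
  · exact hf.lin v hv'
  intro y
  have hadd : ∀ x x' : ι → ℝ, lab S v c (mix (S.st v) (x + x') y) =
      lab S v c (mix (S.st v) x y) + lab S v c (mix (S.st v) x' y) := fun x x' => by
    have h1 := e0 y x x'
    have h2 := e0 y x 0
    have h3 := e0 y 0 x'
    have h4 := e0 y 0 0
    simp only [zero_add, add_zero] at h2 h3 h4
    simp only [lab, hmm]; linarith
  let g : (ι → ℝ) →+ ℝ := AddMonoidHom.mk' (fun x => lab S v c (mix (S.st v) x y)) hadd
  have h1 : ∀ (j : ι) (s : ℝ), g (Pi.single j s) = s * g (Pi.single j 1) := fun j s => by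
    change lab S v c _ = s * lab S v c _
    simp only [lab, hmm]
    by_cases hj : j ∈ q ∩ S.sts A ∧ j ∈ S.st v
    · obtain ⟨u, h1, h2⟩ := MS.mem_sts.1 (mem_inter.1 hj.1).2
      have e1 : ∀ r : ℝ, mix (S.st v) (Pi.single j r) y =
          Function.update (mix (S.st v) 0 y) j r := fun r => by
        funext i
        by_cases hi : i = j
        · subst hi; simp [mix_pos _ _ hj.2]
        · simp only [Function.update_of_ne hi, mix, Pi.single_eq_of_ne hi, Pi.zero_apply]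
      have e2 : Function.update (mix (S.st v) 0 y) j 0 = mix (S.st v) 0 y := by
        rw [← e1, Pi.single_zero]
      rw [e1, e1, lin_update (hc.lin u h1) (S.mem_st.2 h2), e2]; ring
    · have e1 : ∀ r : ℝ, c (mix (S.st v) (Pi.single j r) y) = c (mix (S.st v) 0 y) := fun r =>
        hc.on _ _ fun i hi => by
          by_cases h3 : i ∈ S.st v
          · have : i ≠ j := fun h4 => hj (h4 ▸ ⟨hi, h3⟩)
            rw [mix_pos _ _ h3, mix_pos _ _ h3, Pi.single_eq_of_ne this]; rfl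
          · rw [mix_neg _ _ h3, mix_neg _ _ h3]
      rw [e1, e1]; ring
  have h2 : ∀ x, g x = ∑ j, x j * g (Pi.single j 1) := fun x => by
    conv_lhs => rw [← univ_sum_single x, map_sum]
    exact sum_congr rfl fun j _ => h1 j _
  refine ⟨hadd, fun r x => ?_⟩
  change g (r • x) = r • g x
  rw [h2, h2, smul_eq_mul, mul_sum]
  exact sum_congr rfl fun j _ => by simp only [Pi.smul_apply, smul_eq_mul]; ring

variable [Fintype V]

/-- the transversal through the copy `c` of `w` -/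
def ch (w : V) (c : Fin 4) : V → Fin 4 := Function.update (fun _ => 0) w c

/-- the copy `c` of an index -/
abbrev cq (S : MS V ι) (w : V) (c : Fin 4) : ι → BI S.fc (0 : Fin 4) := cp S.fc 0 (ch w c)

/-- the indices of the four copies -/
def q4 (S : MS V ι) (q : Finset ι) (w : V) : Finset (BI S.fc (0 : Fin 4)) :=
  univ.biUnion fun c => q.image (cq S w c)

/-- the base copies of a set of vertices -/
def a4 (A : Finset V) : Finset (V × Fin 4) := A.image fun v => (v, 0)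

omit [Fintype V] in
theorem cq_out {w : V} {j : ι} (hj : j ∉ S.st w) (c c' : Fin 4) : cq S w c j = cq S w c' j :=
  cp_congr fun v hv => by
    have : v ≠ w := fun e => hj (S.mem_st.2 (e ▸ hv))
    simp only [ch, Function.update_of_ne this]

theorem cq_mem {q : Finset ι} {w : V} {j : ι} (hj : j ∈ q) (c : Fin 4) : cq S w c j ∈ q4 S q w :=
  mem_biUnion.2 ⟨c, mem_univ _, mem_image_of_mem _ hj⟩

theorem cq_sts {A : Finset V} {w : V} (hw : w ∉ A) (c : Fin 4) (j : ι) :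
    cq S w c j ∈ (blow S 0).sts (a4 A) ↔ j ∈ S.sts A := by
  rw [MS.mem_sts, MS.mem_sts]
  constructor
  · rintro ⟨u, h1, h2⟩
    obtain ⟨v, h3, rfl⟩ := mem_image.1 h1
    exact ⟨v, h3, (mem_fc_blow.1 h2).1⟩
  · rintro ⟨v, h1, h2⟩
    refine ⟨(v, 0), mem_image_of_mem _ h1, mem_fc_blow.2 ⟨h2, ?_⟩⟩
    have : v ≠ w := fun e => hw (e ▸ h1)
    rw [cp_snd _ h2]; simp only [ch, Function.update_of_ne this]

theorem cls_q4 {q : Finset ι} (hq : Cls S q) (w : V) : Cls (blow S 0) (q4 S q w) :=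
  ⟨fun i j a b hi => by
    obtain ⟨c, -, hc⟩ := mem_biUnion.1 hi
    exact mem_biUnion.2 ⟨c, mem_univ _, (hq.image_cp 0 _).blk i j a b hc⟩,
  fun i hi j hj => by
    obtain ⟨c, -, hc⟩ := mem_biUnion.1 hi
    exact mem_biUnion.2 ⟨c, mem_univ _, (hq.image_cp 0 _).dep i hc j hj⟩⟩

/-- the sum of two copies -/
def pr {α : Type*} [Add α] (S : MS V ι) (w : V) (a b : Fin 4) (Z : BI S.fc (0 : Fin 4) → α) :
    ι → α := mix (S.st w) (fun j => Z (cq S w a j) + Z (cq S w b j)) (Z ∘ cq S w 0)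

theorem fm_pr {q : Finset ι} {A : Finset V} {w : V} (hw : w ∉ A) (a b : Fin 4)
    {η : (ι → ℝ) → ℝ} (h : Fm S (q ∩ S.sts A) A η) :
    Fm (nar (blow S 0) 3) (q4 S q w ∩ (blow S 0).sts (a4 A)) (a4 A) fun Z => η (pr S w a b Z) := by
  constructor
  · intro Z Z' e
    refine h.on _ _ fun j hj => ?_
    have : ∀ c, Z (cq S w c j) = Z' (cq S w c j) := fun c => e _
      (mem_inter.2 ⟨cq_mem (mem_inter.1 hj).1 c, (cq_sts hw c j).2 (mem_inter.1 hj).2⟩)
    simp only [pr, mix, Function.comp, this]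
  · intro u hu Y
    obtain ⟨v, hv, rfl⟩ := mem_image.1 hu
    have hvw : v ≠ w := fun e => hw (e ▸ hv)
    have e : ∀ X, pr S w a b (mix ((blow S 0).st (v, 0)) X Y) =
        mix (S.st v) (pr S w a b X) (pr S w a b Y) := fun X => by
      have : ∀ c j, mix ((blow S 0).st (v, 0)) X Y (cq S w c j) =
          mix (S.st v) (X ∘ cq S w c) (Y ∘ cq S w c) j := fun c j => by
        have h1 := congrFun (mix_cp (c0 := (0 : Fin 4)) (ch w c) v X Y) j
        rwa [show ch w c v = 0 by simp only [ch, Function.update_of_ne hvw]] at h1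
      funext j
      simp only [pr, mix, Function.comp] at this ⊢
      rw [this, this, this]
      split_ifs <;> rfl
    change IsLinearMap ℝ fun X => η (pr S w a b (mix ((blow S 0).st (v, 0)) X Y))
    simp only [e]
    constructor
    · intro X X'
      rw [← (h.lin v hv _).map_add]
      congr 2; funext j
      simp only [pr, mix, Function.comp, Pi.add_apply]; split_ifs <;> ring
    · intro r X
      rw [← (h.lin v hv _).map_smul]
      congr 2; funext j
      simp only [pr, mix, Function.comp, Pi.smul_apply, smul_eq_mul]; split_ifs <;> ring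

omit [Fintype V] in
theorem intV_pr (w : V) (a b : Fin 4) {η : (ι → ℝ) → ℝ} (h : IntV η) :
    IntV fun Z => η (pr S w a b Z) := fun Z => by
  obtain ⟨n, hn⟩ := h (pr S w a b Z)
  refine ⟨n, ?_⟩
  rw [← hn]
  beta_reduce
  congr 1; funext j
  simp only [pr, mix, Function.comp, toR_apply]; split_ifs <;> simp

omit [Fintype V] in
theorem lin_pr {w : V} (a b : Fin 4) {f : (ι → ℝ) → ℝ} (h : Lin (S.st w) f)
    (Z : BI S.fc (0 : Fin 4) → ℝ) : f (pr S w a b Z) = f (Z ∘ cq S w a) + f (Z ∘ cq S w b) := by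
  have e : ∀ c, Z ∘ cq S w c = mix (S.st w) (Z ∘ cq S w c) (Z ∘ cq S w 0) := fun c => by
    funext j
    by_cases hj : j ∈ S.st w
    · rw [mix_pos _ _ hj]
    · rw [mix_neg _ _ hj, Function.comp, cq_out hj c 0]; rfl
  rw [e a, e b, ← (h _).map_add]; rfl

omit [Fintype V] in
theorem aff_pr {w : V} (a b : Fin 4) {f : (ι → ℝ) → ℝ} (h : Aff (S.st w) f)
    (Z : BI S.fc (0 : Fin 4) → ℝ) : f (pr S w a b Z) = f (Z ∘ cq S w a) + f (Z ∘ cq S w b) -
      f (mix (S.st w) 0 (Z ∘ cq S w 0)) := by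
  have h1 := lin_pr a b h.lin_part Z
  have e : ∀ c, mix (S.st w) 0 (Z ∘ cq S w c) = mix (S.st w) 0 (Z ∘ cq S w 0) := fun c => by
    funext j
    by_cases hj : j ∈ S.st w
    · rw [mix_pos _ _ hj, mix_pos _ _ hj]
    · rw [mix_neg _ _ hj, mix_neg _ _ hj, Function.comp, cq_out hj c 0]; rfl
  rw [e a, e b, pr, mix_mix] at h1
  rw [pr]; linarith

theorem bal_pr (h : S.Ok) (hc : S.Cen) {q : Finset ι} (hq : Cls S q) {A : Finset V} {w : V}
    (hw : w ∉ A) (y : ι → ℝ) (x : Fin 4 → ↥((q \ S.sts A) ∩ S.st w) → ℝ)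
    {Y Z : BI S.fc (0 : Fin 4) → ℝ}
    (hY : ∀ c, ∀ j ∈ q \ S.sts A, Y (cq S w c j) = put _ (x c) y j)
    (hZ : Bal (nar (blow S 0) 3) (q4 S q w) (q4 S q w ∩ (blow S 0).sts (a4 A)) Y Z)
    (a b : Fin 4) : Bal S q (q ∩ S.sts A) (put _ (x a + x b) y) (pr S w a b Z) := by
  constructor
  · intro j hj
    have h1 : j ∈ q \ S.sts A := by simp only [mem_sdiff, mem_inter] at hj ⊢; tauto
    have h2 : ∀ c, Z (cq S w c j) = put _ (x c) y j := fun c => by
      rw [← hY c j h1]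
      exact hZ.1 _ (mem_sdiff.2 ⟨cq_mem (mem_sdiff.1 h1).1 c, fun e =>
        (mem_sdiff.1 h1).2 ((cq_sts hw c j).1 (mem_inter.1 e).2)⟩)
    by_cases h3 : j ∈ S.st w
    · have h4 := mem_inter.2 ⟨h1, h3⟩
      rw [pr, mix_pos _ _ h3, h2, h2, put_pos _ _ h4, put_pos _ _ h4, put_pos _ _ h4]; rfl
    · have h4 : j ∉ (q \ S.sts A) ∩ S.st w := fun e => h3 (mem_inter.1 e).2
      rw [pr, mix_neg _ _ h3, Function.comp, h2, put_neg _ _ h4, put_neg _ _ h4]
  have hb := ok_blow h (0 : Fin 4)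
  have h1 : ∀ c, ln2 S (q ∩ S.sts A) (Z ∘ cq S w c) ≤ 1 / 9 := fun c => by
    rw [← ln2_image (S' := blow S 0) (cp_inj _ _ _) (fun i _ j _ => G_cp h _ i j)
      fun z i _ => p_cp h _ z i]
    have h2 := hZ.2
    rw [ln2_nar] at h2
    have e : (q ∩ S.sts A).image (cq S w c) = q.image (cq S w c) ∩ (blow S 0).sts (a4 A) := by
      ext i
      simp only [mem_image, mem_inter]
      exact ⟨fun ⟨j, h3, h4⟩ => ⟨⟨j, h3.1, h4⟩, h4 ▸ (cq_sts hw c j).2 h3.2⟩,
        fun ⟨⟨j, h3, h4⟩, h5⟩ => ⟨j, ⟨h3, (cq_sts hw c j).1 (h4 ▸ h5)⟩, h4⟩⟩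
    have h3 := ln2_mono hb (r := (q ∩ S.sts A).image (cq S w c))
      (s := q4 S q w ∩ (blow S 0).sts (a4 A))
      (by rw [e]; exact ((hq.image_cp 0 _).sat hb).inter (hb.sat_sts _))
      (by rw [e]; exact inter_subset_inter_right (subset_biUnion_of_mem
        (fun c => q.image (cq S w c)) (mem_univ c))) Z
    linarith
  have h2 : ∀ c, ln2 S (q ∩ S.sts A ∩ S.st w) (Z ∘ cq S w c) ≤ 1 / 9 ∧
      ln2 S ((q ∩ S.sts A) \ S.st w) (Z ∘ cq S w c) ≤ 1 / 9 := fun c => by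
    have h3 := h1 c
    rw [ln2_split h (h.sat_st w)] at h3
    constructor
    · linarith [ln2_nonneg (q := (q ∩ S.sts A) \ S.st w) h (Z ∘ cq S w c)]
    · linarith [ln2_nonneg (q := q ∩ S.sts A ∩ S.st w) h (Z ∘ cq S w c)]
  rw [ln2_split h (h.sat_st w)]
  have h3 : ln2 S ((q ∩ S.sts A) \ S.st w) (pr S w a b Z) =
      ln2 S ((q ∩ S.sts A) \ S.st w) (Z ∘ cq S w 0) := ln2_congr fun j hj => by
    have e : ∀ i ∈ q \ S.st w, pr S w a b Z i = (Z ∘ cq S w 0) i := fun i hi =>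
      mix_neg _ _ (mem_sdiff.1 hi).2
    have h4 : j ∈ q \ S.st w := by simp only [mem_sdiff, mem_inter] at hj ⊢; tauto
    rw [e j h4, cls_p h (hq.sdiff_st w) e h4]
  have h4 : ln2 S (q ∩ S.sts A ∩ S.st w) (pr S w a b Z) ≤
      2 * ln2 S (q ∩ S.sts A ∩ S.st w) (Z ∘ cq S w a) +
        2 * ln2 S (q ∩ S.sts A ∩ S.st w) (Z ∘ cq S w b) := by
    refine le_trans (le_of_eq ?_) (qq_add_le h.pd.posSemidef _ _)
    unfold ln2
    congr 1; funext j
    by_cases hj : j ∈ q ∩ S.sts A ∩ S.st w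
    · have h5 := (mem_inter.1 hj).2
      rw [Pi.add_apply, msk_pos _ hj, msk_pos _ hj, msk_pos _ hj, Pi.sub_apply, Pi.sub_apply,
        Pi.sub_apply, lin_pr a b (h.lin hc (S.mem_st.1 h5)), pr, mix_pos _ _ h5]
      simp only [Function.comp]; ring
    · rw [Pi.add_apply, msk_neg _ hj, msk_neg _ hj, msk_neg _ hj, add_zero]
  linarith [(h2 a).1, (h2 b).1, (h2 0).2]

/-- the labels along a generic parallelogram -/
theorem lab_quad (h : S.Ok) (hc : S.Cen) {q : Finset ι} (hq : Cls S q) {A : Finset V} {w : V}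
    (hw : w ∉ A) {Φ : (ι → ℝ) → ℝ} (hΦ : Aff (S.st w) Φ) (y : ι → ℝ)
    (x : Fin 4 → ↥((q \ S.sts A) ∩ S.st w) → ℝ) {Y : BI S.fc (0 : Fin 4) → ℝ}
    (hY : ∀ c, ∀ j ∈ q \ S.sts A, Y (cq S w c j) = put _ (x c) y j) {K : ℝ}
    (hU : UF (nar (blow S 0) 3) (q4 S q w) (a4 A) (4 * K) Y) {a b c d : (ι → ℝ) → ℝ}
    (ha : Fm S (q ∩ S.sts A) A a ∧ IntV a ∧
      ∀ z, Bal S q (q ∩ S.sts A) (put _ (x 0 + x 2) y) z → |Φ z - a z| ≤ K)
    (hb : Fm S (q ∩ S.sts A) A b ∧ IntV b ∧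
      ∀ z, Bal S q (q ∩ S.sts A) (put _ (x 0 + x 3) y) z → |Φ z - b z| ≤ K)
    (hc' : Fm S (q ∩ S.sts A) A c ∧ IntV c ∧
      ∀ z, Bal S q (q ∩ S.sts A) (put _ (x 1 + x 2) y) z → |Φ z - c z| ≤ K)
    (hd : Fm S (q ∩ S.sts A) A d ∧ IntV d ∧
      ∀ z, Bal S q (q ∩ S.sts A) (put _ (x 1 + x 3) y) z → |Φ z - d z| ≤ K) :
    lab S w a = lab S w c ∧ Fm S (q ∩ S.sts A) (insert w A) (lab S w c) := by
  have key := hU (fun Z => a (pr S w 0 2 Z) - b (pr S w 0 3 Z) - c (pr S w 1 2 Z) +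
      d (pr S w 1 3 Z))
    ((((fm_pr hw 0 2 ha.1).sub (fm_pr hw 0 3 hb.1)).sub (fm_pr hw 1 2 hc'.1)).add
      (fm_pr hw 1 3 hd.1))
    ((((intV_pr w 0 2 ha.2.1).sub (intV_pr w 0 3 hb.2.1)).sub (intV_pr w 1 2 hc'.2.1)).add
      (intV_pr w 1 3 hd.2.1)) fun Z hZ => by
      have a1 := abs_le.1 (ha.2.2 _ (bal_pr h hc hq hw y x hY hZ 0 2))
      have a2 := abs_le.1 (hb.2.2 _ (bal_pr h hc hq hw y x hY hZ 0 3))
      have a3 := abs_le.1 (hc'.2.2 _ (bal_pr h hc hq hw y x hY hZ 1 2))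
      have a4 := abs_le.1 (hd.2.2 _ (bal_pr h hc hq hw y x hY hZ 1 3))
      rw [aff_pr _ _ hΦ] at a1 a2 a3 a4
      rw [abs_le]; constructor <;> linarith [a1.1, a1.2, a2.1, a2.2, a3.1, a3.2, a4.1, a4.2]
  refine lab_of_id (b := b) (d := d) hc'.1 fun u t => ?_
  have := key fun i => if w ∈ S.fc i.1.1 then t (i.1.2 w) i.1.1 else u i.1.1
  have e : ∀ a b, pr S w a b (fun i : BI S.fc (0 : Fin 4) =>
      if w ∈ S.fc i.1.1 then t (i.1.2 w) i.1.1 else u i.1.1) = mix (S.st w) (t a + t b) u :=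
    fun a b => by
      funext j
      by_cases hj : j ∈ S.st w
      · have h1 := S.mem_st.1 hj
        have h2 : ∀ c, (cq S w c j).1.2 w = c := fun c => by rw [cp_snd _ h1]; simp [ch]
        have h3 : ∀ c, (cq S w c j).1.1 = j := fun _ => rfl
        rw [pr, mix_pos _ _ hj, mix_pos _ _ hj]
        simp only [h2, h3, if_pos h1, Pi.add_apply]
      · rw [pr, mix_neg _ _ hj, mix_neg _ _ hj]
        exact if_neg fun e => hj (S.mem_st.2 e)
  simpa only [e] using this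

end

end Vale.Agent.P057T1
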