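import Vale.Agent.P057T1.Alg
import Vale.Agent.P057HU.Gau

/-!
One vertex is unfrozen: the linear algebra and the use of the bilinear Vinogradov lemma.
-/

open Matrix Finset
open scoped Real ENNReal
open Vale.Agent.P267.H775 Vale.Agent.P057G Vale.Agent.P057MA Vale.Agent.P057HU

namespace Vale.Agent.P057T1

noncomputable section

variable {V ι : Type*} [DecidableEq ι] [Fintype ι] [DecidableEq V]

/-- near an integer form when the coordinates that miss `A` are frozen at `y` -/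
def NF (S : MS V ι) (q : Finset ι) (A : Finset V) (Φ : (ι → ℝ) → ℝ) (K : ℝ) (y : ι → ℝ) : Prop :=
  ∃ η, Fm S (q ∩ S.sts A) A η ∧ IntV η ∧ ∀ z, Bal S q (q ∩ S.sts A) y z → |Φ z - η z| ≤ K

/-- short integer forms vanish when the coordinates that miss `A` are frozen at `y` -/
def UF (S : MS V ι) (q : Finset ι) (A : Finset V) (K : ℝ) (y : ι → ℝ) : Prop :=
  ∀ η, Fm S (q ∩ S.sts A) A η → IntV η → (∀ z, Bal S q (q ∩ S.sts A) y z → |η z| ≤ K) →
    ∀ z, η z = 0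

variable {S : MS V ι}

/-- bounded functions on a set -/
abbrev BF (B : Type*) := lp (fun _ : B => ℝ) ∞

/-- a bounded function as a vector -/
def mkB {B : Type*} (f : B → ℝ) (h : ∃ C, ∀ b, |f b| ≤ C) : BF B :=
  ⟨f, memℓp_infty (by
    obtain ⟨C, hC⟩ := h
    exact ⟨C, by rintro _ ⟨b, rfl⟩; exact hC b⟩)⟩

theorem bf_le {B : Type*} (e : BF B) (b : B) : |e b| ≤ ‖e‖ :=
  lp.norm_apply_le_norm ENNReal.top_ne_zero e b

theorem bf_norm_le {B : Type*} (e : BF B) {C : ℝ} (h0 : 0 ≤ C) (h : ∀ b, |e b| ≤ C) : ‖e‖ ≤ C :=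
  lp.norm_le_of_forall_le h0 h

omit [Fintype ι] [DecidableEq V] in
theorem lin_put {P r : Finset ι} (hd : ∀ j ∈ P, j ∉ r) (x : P → ℝ) :
    RMap r fun z => put P x z := by
  constructor
  · intro j hj a y
    by_cases h : j ∈ P
    · rw [put_pos _ _ h, put_pos _ _ h]
    · rw [put_neg _ _ h, put_neg _ _ h, mix_neg _ _ hj, mix_neg _ _ hj]
  · intro j hj
    have h : j ∉ P := fun a => hd j a hj
    simpa only [put_neg _ _ h] using lin_coord hj

omit [Fintype ι] [DecidableEq V] in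
theorem lin_mul_out {r s : Finset ι} {f g : (ι → ℝ) → ℝ} (hf : Lin r f) (hg : On s g)
    (hd : ∀ j ∈ s, j ∉ r) : Lin r fun z => f z * g z := fun y => by
  have e : ∀ x, g (mix r x y) = g y := fun x => hg _ _ fun j hj => mix_neg _ _ (hd j hj)
  exact ⟨fun a b => by beta_reduce; rw [(hf y).map_add, e, e, e]; ring,
    fun c a => by beta_reduce; rw [(hf y).map_smul, e, e]; simp only [smul_eq_mul]; ring⟩

theorem step_aff (h : S.Ok) (hc : S.Cen) {q : Finset ι} (hq : Cls S q) {A : Finset V} {w : V}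
    {Φ Φ0 : (ι → ℝ) → ℝ} (hΦ : Fm S q (insert w A) Φ) (hΦ0 : Fm S (q \ S.st w) A Φ0)
    (y : ι → ℤ) {lam : (ι → ℝ) → ℝ}
    (hl : Fm S (q ∩ S.sts A) (insert w A) lam) (hli : IntV lam) {K : ℝ} (hK : 0 ≤ K)
    (Y : Set (↥((q \ S.sts A) ∩ S.st w) → ℤ))
    (hY : ∀ x ∈ Y, ∃ c, Fm S ((q \ S.st w) ∩ S.sts A) A c ∧ IntV c ∧
      ∀ z, Bal S q (q ∩ S.sts A) (toR (put _ x y)) z → |Φ z - lam z - (c z - Φ0 z)| ≤ K)
    (D M : ℕ) (hD : q.card ≤ D) (hD1 : 1 ≤ D) {β W : ℝ} (hβ : 0 < β) (hM : 5 ≤ M * β ^ 2)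
    (hW : 64 * (D : ℝ) ^ 2 * (M : ℝ) ^ 2 ≤ W)
    (hf : th (W ^ 2 • S.fg (q \ S.sts A) w (toR y))⁻¹ 0 ≤ 3 / 2)
    (hU : UF S (q \ S.st w) A ((M : ℝ) ^ 3 * (6 * K)) (toR y)) (x0 : _ → ℝ)
    (hw : β * vol (S.fg (q \ S.sts A) w (toR y)) ≤
      ∑' z, Y.indicator (fun x => gs (S.fg (q \ S.sts A) w (toR y)) (toR x - x0)) z) :
    ∃ n : ℕ, 1 ≤ n ∧ n ≤ M ∧ NF S q (insert w A) (fun z => n * Φ z)
      (2 * M * K + 32 * D * (M : ℝ) ^ 3 * K) (toR y) ∧
      ∀ ρ : ℝ, ∀ x ∈ Y, √(qq (S.fg (q \ S.sts A) w (toR y)) (toR x)) ≤ ρ →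
        NF S (q \ S.st w) A (fun z => n * Φ0 z) (M * K + 32 * D * (M : ℝ) ^ 3 * K * ρ) (toR y) := by
  let P := (q \ S.sts A) ∩ S.st w
  have hP : P = (q \ S.sts A) ∩ S.st w := rfl
  set N := (q ∩ S.sts A) ∩ S.st w with hN
  set A0 := (q \ S.st w) ∩ S.sts A with hA0
  set H := S.fg (q \ S.sts A) w (toR y) with hH
  have hHp : H.PosDef := h.fg_pos _ _ _
  have mP : ∀ j, j ∈ P ↔ j ∈ q ∧ j ∉ S.sts A ∧ j ∈ S.st w := fun j => by
    simp only [hP, mem_inter, mem_sdiff, and_assoc]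
  have mN : ∀ j, j ∈ N ↔ j ∈ q ∧ j ∈ S.sts A ∧ j ∈ S.st w := fun j => by
    simp only [hN, mem_inter, and_assoc]
  have mA : ∀ j, j ∈ A0 ↔ j ∈ q ∧ j ∉ S.st w ∧ j ∈ S.sts A := fun j => by
    simp only [hA0, mem_inter, mem_sdiff, and_assoc]
  have mI : ∀ j, j ∈ q ∩ S.sts (insert w A) ↔ j ∈ q ∧ (j ∈ S.st w ∨ j ∈ S.sts A) := fun j => by
    simp only [MS.sts_insert, mem_inter, mem_union]
  have hq0 : Cls S (q \ S.st w) := hq.sdiff_st w
  have hPv : ∀ v ∈ A, ∀ j ∈ P, j ∉ S.st v := fun v hv j hj a =>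
    ((mP j).1 hj).2.1 (MS.st_subset_sts hv a)
  have hcov : ∀ {f : (ι → ℝ) → ℝ}, (∀ v ∈ A, Lin (S.st v) f) →
      ∀ j ∈ A0, ∃ t, j ∈ t ∧ Lin t f := fun hf j hj => by
    obtain ⟨v, h1, h2⟩ := MS.mem_sts.1 ((mA j).1 hj).2.2
    exact ⟨_, S.mem_st.2 h2, hf v h1⟩
  have hΨ : Fm S q (insert w A) fun z => Φ z - lam z := hΦ.sub (hl.mono inter_subset_left le_rfl)
  set Ψ : (ι → ℝ) → ℝ := fun z => Φ z - lam z with hΨd
  have hΨw := hΨ.lin w (mem_insert_self _ _)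
  let Θ : (ι → ℝ) → ℝ := fun z => Ψ (sc S N z)
  have hΘo : ∀ z z', (∀ j ∈ q \ N, z j = z' j) → Θ z = Θ z' := fun z z' e =>
    hΨ.on _ _ (sc_loc h hq e)
  have hΘl : ∀ v ∈ insert w A, Lin (S.st v) Θ := fun v hv =>
    lin_comp (hΨ.lin v hv) (rmap_sc h hc v N)
  let Bl := {z : ι → ℝ // Bal S (q \ S.st w) A0 (toR y) z}
  have hput : ∀ (x : P → ℝ) (b : ι → ℝ), Θ (put P x b) = Θ (mix (S.st w) (put P x 0) b) :=
    fun x b => hΘo _ _ fun j hj => by
      by_cases h1 : j ∈ P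
      · rw [put_pos _ _ h1, mix_pos _ _ ((mP j).1 h1).2.2, put_pos _ _ h1]
      · have h2 : j ∉ S.st w := fun a => by
          have := mem_sdiff.1 hj
          rw [mN] at this; rw [mP] at h1; tauto
        rw [put_neg _ _ h1, mix_neg _ _ h2]
  have hbd : ∀ x : P → ℝ, ∃ C, ∀ b : Bl, |Θ (put P x b.1)| ≤ C := fun x => by
    obtain ⟨C, hC⟩ := form_bdd h hc hq0 (s := A0) inter_subset_left (toR y)
      (f := fun z => Θ (put P x z)) (fun z z' e => hΘo _ _ fun j hj => by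
        by_cases h1 : j ∈ P
        · rw [put_pos _ _ h1, put_pos _ _ h1]
        · rw [put_neg _ _ h1, put_neg _ _ h1]
          refine e j ?_
          have := mem_sdiff.1 hj
          rw [mN] at this; rw [mP] at h1; rw [mem_sdiff]; tauto)
      (hcov fun v hv => lin_comp (hΘl v (mem_insert_of_mem hv)) (lin_put (hPv v hv) x))
    exact ⟨C, fun b => hC b.1 b.2⟩
  have hpa : ∀ x x' : P → ℝ, put P (x + x') (0 : ι → ℝ) = put P x 0 + put P x' 0 := fun x x' => by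
    funext j; simp only [put, Pi.add_apply]; split_ifs <;> simp
  have hps : ∀ (c : ℝ) (x : P → ℝ), put P (c • x) (0 : ι → ℝ) = c • put P x 0 := fun c x => by
    funext j; simp only [put, Pi.smul_apply]; split_ifs <;> simp
  let Lr : (P → ℝ) →ₗ[ℝ] BF Bl :=
    { toFun := fun x => mkB (fun b => Θ (put P x b.1)) (hbd x)
      map_add' := fun x x' => lp.ext (funext fun b => by
        change Θ (put P (x + x') b.1) = Θ (put P x b.1) + Θ (put P x' b.1)
        rw [hput, hput, hput, hpa]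
        exact (hΘl w (mem_insert_self _ _) b.1).map_add _ _)
      map_smul' := fun c x => lp.ext (funext fun b => by
        change Θ (put P (c • x) b.1) = c • Θ (put P x b.1)
        rw [hput, hput, hps]
        exact (hΘl w (mem_insert_self _ _) b.1).map_smul _ _) }
  let Γ : AddSubgroup (BF Bl) :=
    { carrier := {e | ∃ η, Fm S A0 A η ∧ IntV η ∧ ∀ b : Bl, e b = η b.1}
      zero_mem' := ⟨fun _ => 0, Fm.zero _ _ _, IntV.zero, fun _ => rfl⟩
      add_mem' := by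
        rintro a b ⟨η, h1, h2, h3⟩ ⟨η', h1', h2', h3'⟩
        exact ⟨_, h1.add h1', h2.add h2', fun c => by rw [← h3, ← h3']; rfl⟩
      neg_mem' := by
        rintro a ⟨η, h1, h2, h3⟩
        exact ⟨_, h1.neg, h2.neg, fun c => by rw [← h3]; rfl⟩ }
  have hΓ : ∀ γ ∈ Γ, ‖γ‖ ≤ (M : ℝ) ^ 3 * (6 * K) → γ = 0 := by
    rintro γ ⟨η, h1, h2, h3⟩ hn
    have := hU η h1 h2 fun z hz => by
      rw [← h3 ⟨z, hz⟩]; exact (bf_le γ _).trans hn
    exact lp.ext (funext fun b => by rw [h3, this]; rfl)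
  have hpos0 : ∀ z z' : ι → ℝ, (∀ j ∈ q \ S.st w, z j = z' j) → ln2 S A0 z = ln2 S A0 z' :=
    fun z z' e => ln2_congr fun j hj => by
      rw [e j (mem_inter.1 hj).1, cls_p h hq0 e (mem_inter.1 hj).1]
  have hspl : ∀ z, ln2 S (q ∩ S.sts A) z = ln2 S N z + ln2 S A0 z := fun z => by
    rw [ln2_split h (h.sat_st w)]
    congr 2; ext j; rw [mA]; simp only [mem_inter, mem_sdiff]; tauto
  have hsc0 : ∀ z, ln2 S N (sc S N z) = 0 := fun z => by
    rw [ln2, show msk N (sc S N z - S.p (sc S N z)) = 0 from funext fun j => ?_, qq_zero]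
    by_cases hj : j ∈ N
    · rw [msk_pos _ hj, Pi.sub_apply, ← sc_fix h z hj, sub_self]; rfl
    · exact msk_neg _ hj
  have hsw : ∀ (x : P → ℝ) (b : ι → ℝ), ∀ j ∈ q \ S.st w, sc S N (put P x b) j = b j :=
    fun x b j hj => by
      have h1 := (mem_sdiff.1 hj).2
      rw [sc_out fun a => h1 ((mN j).1 a).2.2, put_neg _ _ fun a => h1 ((mP j).1 a).2.2]
  have hfr : ∀ (x : P → ℤ) (b : Bl), ∀ j ∈ q \ (q ∩ S.sts A),
      sc S N (put P (toR x) b.1) j = toR (put P x y) j := fun x b j hj => by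
    have h1 : j ∈ q ∧ j ∉ S.sts A := by
      simp only [mem_inter, mem_sdiff] at hj; tauto
    rw [sc_out fun a => h1.2 ((mN j).1 a).2.1, toR_put]
    by_cases h2 : j ∈ P
    · rw [put_pos _ _ h2, put_pos _ _ h2]
    · rw [put_neg _ _ h2, put_neg _ _ h2]
      refine b.2.1 j ?_
      rw [mP] at h2; rw [mem_sdiff, mem_sdiff, mA]; tauto
  obtain ⟨C0, hC0⟩ := form_bdd h hc hq0 (s := A0) inter_subset_left (toR y) hΦ0.neg.on
    (hcov hΦ0.neg.lin)
  let c0 : BF Bl := mkB (fun b : Bl => -Φ0 b.1) ⟨C0, fun b => hC0 b.1 b.2⟩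
  have hS : ∀ x ∈ Y, Cl Γ K ((Lr.toAddMonoidHom.comp zc) x - c0) := fun x hx => by
    obtain ⟨c, h1, h2, h3⟩ := hY x hx
    obtain ⟨C, hC⟩ := form_bdd h hc hq0 (s := A0) inter_subset_left (toR y)
      (h1.on.mono inter_subset_left) (hcov h1.lin)
    refine ⟨mkB (fun b : Bl => c b.1) ⟨C, fun b => hC b.1 b.2⟩, ⟨c, h1, h2, fun _ => rfl⟩,
      bf_norm_le _ hK fun b => ?_⟩
    have h4 := h3 (sc S N (put P (toR x) b.1)) ⟨hfr x b, by
      rw [hspl, hsc0, zero_add, hpos0 _ _ (hsw _ _)]; exact b.2.2⟩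
    rw [h1.on _ b.1 fun j hj => hsw _ _ j (mem_inter.1 hj).1, hΦ0.on _ b.1 (hsw _ _)] at h4
    refine le_of_eq_of_le (congrArg _ ?_) h4
    change Θ (put P (toR x) b.1) - -Φ0 b.1 - c b.1 = Θ (put P (toR x) b.1) - _
    ring
  obtain ⟨n, hn1, hnM, R, hR, hRn⟩ := gauss_vin hHp D
    ((Fintype.card_coe P).trans_le ((card_le_card
      (inter_subset_left.trans sdiff_subset)).trans hD)) hD1 M β K W hβ hM hK hW hf Γ hΓ
    (Lr.toAddMonoidHom.comp zc) x0 Y c0 hS hw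
  have hnM' : (n : ℝ) ≤ M := by exact_mod_cast hnM
  have hj : ∀ j : P, ∃ η, Fm S A0 A η ∧ IntV η ∧ ∀ b : Bl,
      n * Lr (Pi.single j 1) b - R (Pi.single j 1) b = η b.1 := fun j => by
    obtain ⟨η, h1, h2, h3⟩ := hR (Pi.single j 1)
    have e : toR (Pi.single j 1 : P → ℤ) = Pi.single j 1 := by
      funext i; by_cases hi : i = j
      · subst hi; simp
      · simp [Pi.single_eq_of_ne hi]
    refine ⟨η, h1, h2, fun b => ?_⟩
    rw [← h3, ← e, ← nsmul_eq_mul]; rfl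
  choose η hη1 hη2 hη3 using hj
  have hne : Y.Nonempty := by
    by_contra h0
    rw [Set.not_nonempty_iff_eq_empty.1 h0] at hw
    simp only [Set.indicator_empty, tsum_zero] at hw
    exact absurd hw (not_le.2 (mul_pos hβ (vol_pos hHp)))
  obtain ⟨x, hx⟩ := hne
  obtain ⟨c, hc1, -, hc3⟩ := hY x hx
  refine ⟨n, hn1, hnM, ⟨fun z => n * lam z + ∑ j : P, z j * η j z, ⟨?_, fun v hv => ?_⟩,
    ((IntV.const n).mul hli).add (IntV.sum _ fun j _ => (IntV.coord _).mul (hη2 j)),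
    fun z hz => ?_⟩, fun ρ x' hx' hρ => ?_⟩
  rotate_right
  · obtain ⟨γ, ⟨g, g1, g2, g3⟩, g4⟩ := hS x' hx'
    obtain ⟨g', g5, g6, g7⟩ := hR x'
    refine ⟨fun z => n * g z - g' z, (g1.smul n).sub g5, ((IntV.const n).mul g2).sub g6,
      fun z hz => ?_⟩
    have a1 := (bf_le _ ⟨z, hz⟩).trans g4
    have a2 := (bf_le _ ⟨z, hz⟩).trans ((hRn (toR x')).trans
      (mul_le_mul_of_nonneg_left hρ (by positivity)))
    have a3 := g7 ⟨z, hz⟩
    change |Lr (toR x') ⟨z, hz⟩ - -Φ0 z - γ ⟨z, hz⟩| ≤ K at a1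
    rw [g3] at a1
    have a4 : n * Lr (toR x') ⟨z, hz⟩ - R (toR x') ⟨z, hz⟩ = g' z := by
      rw [← a3, ← nsmul_eq_mul]; rfl
    have e : n * Φ0 z - (n * g z - g' z) =
        n * (Lr (toR x') ⟨z, hz⟩ - -Φ0 z - g z) - R (toR x') ⟨z, hz⟩ := by rw [← a4]; ring
    rw [e]
    refine (abs_sub _ _).trans (add_le_add ?_ a2)
    rw [abs_mul, Nat.abs_cast]
    exact mul_le_mul hnM' a1 (abs_nonneg _) (by positivity)
  · refine ((hl.smul n).on.mono fun j hj => ?_).map₂ (On.sum _ fun j _ =>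
      (On.coord ?_).map₂ ((hη1 j).on.mono fun i hi => ?_) (· * ·)) (· + ·)
    · rw [mI]; exact ⟨(mem_inter.1 hj).1, Or.inr (mem_inter.1 hj).2⟩
    · have := (mP j).1 j.2; rw [mI]; tauto
    · rw [mA] at hi; rw [mI]; tauto
  · refine lin_add ((hl.smul n).lin v hv) ?_
    have := Lin.sum (r := S.st v) univ (fun _ : P => (1 : ℝ)) (θ := fun j z => z j * η j z)
      fun j _ => ?_
    · simpa only [one_mul] using this
    · rcases mem_insert.1 hv with rfl | hv'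
      · exact lin_mul_out (lin_coord ((mP j).1 j.2).2.2) (hη1 j).on fun i hi => ((mA i).1 hi).2.1
      · simpa only [mul_comm] using lin_mul_out (s := {(j : ι)}) ((hη1 j).lin v hv')
          (On.coord (mem_singleton_self _)) fun i hi => by
            rw [mem_singleton.1 hi]; exact hPv v hv' j j.2
  have hs1 : ln2 S (q ∩ S.sts (insert w A)) z = ln2 S (q ∩ S.sts A) z + ln2 S P z := by
    rw [ln2_split h (h.sat_sts A)]
    congr 2
    · ext j; rw [mem_inter, mI, mem_inter]; tauto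
    · ext j; rw [mem_sdiff, mI, mP]; tauto
  have hz1 := hz.2
  rw [hs1, hspl] at hz1
  have p1 := ln2_nonneg (q := N) h z
  have p2 := ln2_nonneg (q := A0) h z
  have p3 := ln2_nonneg (q := P) h z
  have hzy : ∀ j ∈ (q \ S.sts A) \ S.st w, z j = toR y j := fun j hj => hz.1 j (by
    rw [mem_sdiff, mI]; simp only [mem_sdiff] at hj; tauto)
  let b : Bl := ⟨z, fun j hj => hzy j (by
    rw [mem_sdiff, mem_sdiff, mA] at hj; simp only [mem_sdiff]; tauto), by linarith⟩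
  have e1 : (fun j : P => z j) = ∑ j : P, z j • (Pi.single j 1 : P → ℝ) := by
    funext i; simp [Finset.sum_apply, Pi.single_apply]
  have e2 : Θ z = Lr (fun j : P => z j) b := by
    change Θ z = Θ (put P (fun j : P => z j) z)
    congr 1; funext j
    by_cases hj : j ∈ P
    · rw [put_pos _ _ hj]
    · rw [put_neg _ _ hj]
  have ev : ∀ T : (P → ℝ) →ₗ[ℝ] BF Bl,
      T (fun j : P => z j) b = ∑ j : P, z j * T (Pi.single j 1) b := fun T => by
    rw [e1, map_sum, lp.coeFn_sum, Finset.sum_apply]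
    exact sum_congr rfl fun j _ => by rw [map_smul]; rfl
  have e3 : n * Θ z - ∑ j : P, z j * η j z = R (fun j : P => z j) b := by
    rw [e2, ev, ev, mul_sum, ← sum_sub_distrib]
    exact sum_congr rfl fun j _ => by rw [show η j z = η j b.1 from rfl, ← hη3]; ring
  have b2 : |R (fun j : P => z j) b| ≤ 32 * D * (M : ℝ) ^ 3 * K := by
    refine (bf_le _ _).trans ((hRn _).trans (mul_le_of_le_one_right (by positivity) ?_))
    rw [← ln2_fg h hc (cls_sdiff_sts hq A) w (toR y) z hzy]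
    exact Real.sqrt_le_one.2 (by linarith)
  have b1 : |Ψ z - Θ z| ≤ 2 * K := by
    let d := z - sc S N z
    let z0 := sc S N (put P (toR x) z)
    have hd : ∀ j ∉ N, d j = 0 := fun j hj => by simp only [d, Pi.sub_apply, sc_out hj, sub_self]
    have hNw : ∀ j ∉ S.st w, j ∉ N := fun j hj a => hj ((mN j).1 a).2.2
    have k1 : ∀ {f : (ι → ℝ) → ℝ}, Lin (S.st w) f → On q f →
        f (z0 + d) - f z0 = f z - f (sc S N z) := fun hf ho => by
      rw [lin_diff hf (u := z0 + d) (v := z0) fun j hj => by simp [hd j (hNw j hj)],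
        lin_diff hf (u := z) (v := sc S N z) fun j hj => sc_out (hNw j hj) z, add_sub_cancel_left]
      refine ho _ _ fun j hj => ?_
      by_cases h1 : j ∈ S.st w
      · rw [mix_pos _ _ h1, mix_pos _ _ h1]
      · rw [mix_neg _ _ h1, mix_neg _ _ h1, Pi.add_apply, hd j (hNw j h1), add_zero]
        exact hsw _ _ j (mem_sdiff.2 ⟨hj, h1⟩)
    have k2 : ∀ j ∈ q \ S.st w, (z0 + d) j = z j := fun j hj => by
      rw [Pi.add_apply, hd j (hNw j (mem_sdiff.1 hj).2), add_zero]; exact hsw _ _ j hj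
    have k3 : ln2 S N (z0 + d) = ln2 S N z := ln2_congr fun j hj => by
      have a1 := k1 (h.lin hc (S.mem_st.1 ((mN j).1 hj).2.2))
        fun u u' e => cls_p h hq e ((mN j).1 hj).1
      have a2 := sc_fix h (put P (toR x) z) hj
      have a3 := sc_fix h z hj
      simp only [d, z0, Pi.add_apply, Pi.sub_apply] at a1 ⊢
      linarith
    have a0 := hc3 z0 ⟨hfr x b, by
      rw [hspl, hsc0, zero_add, hpos0 _ _ (hsw _ _)]; linarith⟩
    have a1 := hc3 (z0 + d) ⟨fun j hj => by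
      rw [Pi.add_apply, hd j fun a => by
        rw [mN] at a; simp only [mem_sdiff, mem_inter] at hj; tauto, add_zero]
      exact hfr x b j hj, by rw [hspl, k3, hpos0 _ _ k2]; linarith⟩
    rw [hc1.on _ z fun j hj => hsw _ _ j (mem_inter.1 hj).1, hΦ0.on _ z (hsw _ _)] at a0
    rw [hc1.on _ z fun j hj => k2 j (mem_inter.1 hj).1, hΦ0.on _ z k2] at a1
    rw [show Θ z = Ψ (sc S N z) from rfl, ← k1 hΨw hΨ.on]
    have := abs_sub (Ψ (z0 + d) - (c z - Φ0 z)) (Ψ z0 - (c z - Φ0 z))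
    rw [sub_sub_sub_cancel_right] at this
    exact this.trans (by simp only [hΨd]; linarith)
  have e4 : n * Φ z - (n * lam z + ∑ j : P, z j * η j z) =
      n * (Ψ z - Θ z) + R (fun j : P => z j) b := by rw [← e3]; simp only [hΨd]; ring
  rw [e4]
  refine (abs_add_le _ _).trans (add_le_add ?_ b2)
  rw [abs_mul, Nat.abs_cast]
  calc (n : ℝ) * |Ψ z - Θ z| ≤ M * (2 * K) := mul_le_mul hnM' b1 (abs_nonneg _) (by positivity)
    _ = 2 * M * K := by ring

theorem step_fin (h : S.Ok) (hc : S.Cen) {q : Finset ι} (hq : Cls S q) {A : Finset V} {w : V}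
    {Φ : (ι → ℝ) → ℝ} (hΦ : Fm S q (insert w A) Φ) (y : ι → ℤ) {lam : (ι → ℝ) → ℝ}
    (hl : Fm S (q ∩ S.sts A) (insert w A) lam) (hli : IntV lam) {K : ℝ} (hK : 0 ≤ K)
    (Y : Set (↥((q \ S.sts A) ∩ S.st w) → ℤ))
    (hY : ∀ x ∈ Y, ∃ c, Fm S ((q \ S.st w) ∩ S.sts A) A c ∧ IntV c ∧
      ∀ z, Bal S q (q ∩ S.sts A) (toR (put _ x y)) z → |Φ z - lam z - c z| ≤ K)
    (D M : ℕ) (hD : q.card ≤ D) (hD1 : 1 ≤ D) {β W : ℝ} (hβ : 0 < β) (hM : 5 ≤ M * β ^ 2)
    (hW : 64 * (D : ℝ) ^ 2 * (M : ℝ) ^ 2 ≤ W)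
    (hf : th (W ^ 2 • S.fg (q \ S.sts A) w (toR y))⁻¹ 0 ≤ 3 / 2)
    (hU : UF S (q \ S.st w) A ((M : ℝ) ^ 3 * (6 * K)) (toR y)) (x0 : _ → ℝ)
    (hw : β * vol (S.fg (q \ S.sts A) w (toR y)) ≤
      ∑' z, Y.indicator (fun x => gs (S.fg (q \ S.sts A) w (toR y)) (toR x - x0)) z) :
    ∃ n : ℕ, 1 ≤ n ∧ n ≤ M ∧ NF S q (insert w A) (fun z => n * Φ z)
      (2 * M * K + 32 * D * (M : ℝ) ^ 3 * K) (toR y) := by
  obtain ⟨n, a, b, c, -⟩ := step_aff h hc hq hΦ (Fm.zero S _ A) y hl hli hK Y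
    (by simpa only [sub_zero] using hY) D M hD hD1 hβ hM hW hf hU x0 hw
  exact ⟨n, a, b, c⟩

end

end Vale.Agent.P057T1
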